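import Vale.Agent.P281.H349.O.Ueno

/-!
# P281, project T-UD (helper349, block R0b): Ueno's theorem for immersed manifolds
-/

open Set Filter Metric Topology

set_option linter.all false

noncomputable section

namespace Vale.Agent.P281.H349.O

/-- a sequence of successive derivatives which vanish at the centre -/
theorem line_zero {W : Type*} [NormedAddCommGroup W] [NormedSpace ℂ W] [CompleteSpace W] {r : ℝ}
    {g : ℕ → ℂ → W} (hg : ∀ k, ∀ s ∈ ball (0 : ℂ) r, HasDerivAt (g k) (g (k + 1) s) s)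
    (h0 : ∀ k, g k 0 = 0) : ∀ s ∈ ball (0 : ℂ) r, g 0 s = 0 := by
  intro s hs
  have hr : 0 < r := (norm_nonneg s).trans_lt (mem_ball_zero_iff.1 hs)
  have hit : ∀ k, ∀ s ∈ ball (0 : ℂ) r, iteratedDeriv k (g 0) s = g k s := by
    intro k
    induction k with
    | zero => intro s hs; rw [iteratedDeriv_zero]
    | succ k ih =>
      intro s hs
      rw [iteratedDeriv_succ]
      have h1 : iteratedDeriv k (g 0) =ᶠ[𝓝 s] g k := by
        filter_upwards [isOpen_ball.mem_nhds hs] with t ht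
        exact ih t ht
      rw [h1.deriv_eq, (hg k s hs).deriv]
  have hd : DifferentiableOn ℂ (g 0) (ball 0 r) := fun t ht =>
    (hg 0 t ht).differentiableAt.differentiableWithinAt
  have h1 := Complex.hasSum_taylorSeries_on_ball hd hs
  have h2 : (fun n : ℕ => ((n.factorial : ℂ))⁻¹ • (s - 0) ^ n • iteratedDeriv n (g 0) 0) =
      fun _ => 0 := by
    funext n
    rw [hit n 0 (mem_ball_self hr), h0]
    simp
  rw [h2] at h1
  exact h1.unique hasSum_zero

variable {d : ℕ} {E V : Type*} [TopologicalSpace E] [NormedAddCommGroup V]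
  [NormedSpace ℂ V] {h : E → V} {m : V →L[ℂ] Cm d} {ψ ψ₁ : OpenPartialHomeomorph E (Cm d)} {e₁ : E}

theorem Flat.fderiv_KK [CompleteSpace V] (H : Flat h m ψ) {x : Cm d} (hx : x ∈ ψ.target) :
    fderiv ℂ (fun x => KK h m (ψ.symm x)) x = dF h m (KK h m) (ψ.symm x) := by
  rw [H.dF_symm hx]

/-- the symmetry of the derivative of the Gauss map -/
theorem Flat.KK_symm [CompleteSpace V] (H : Flat h m ψ) {x : Cm d} (hx : x ∈ ψ.target)
    (a b : Cm d) : fderiv ℂ (fun x => KK h m (ψ.symm x)) x a b =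
      fderiv ℂ (fun x => KK h m (ψ.symm x)) x b a := by
  have h1 : (fun x => KK h m (ψ.symm x)) =ᶠ[𝓝 x] fderiv ℂ (fun x => h (ψ.symm x)) := by
    filter_upwards [ψ.open_target.mem_nhds hx] with y hy
    exact H.dF_symm hy h
  rw [h1.fderiv_eq]
  have h3 : ContDiffAt ℂ 2 (fun x => h (ψ.symm x)) x := (H.an x hx).contDiffAt
  exact (h3.isSymmSndFDerivAt (by simp)).eq a b

/-- a generic point is in its `Ys` -/
theorem mem_Ys [FiniteDimensional ℂ V] (H₁ : Flat h m ψ₁) (he₁ : e₁ ∈ ψ₁.source)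
    (hmin : ∀ᶠ e in 𝓝 e₁, Module.finrank ℂ (Nn h m e₁) ≤ Module.finrank ℂ (Nn h m e)) :
    e₁ ∈ Ys h m e₁ := by
  have hcV : CompleteSpace V := FiniteDimensional.complete ℂ V
  have ht : m (h e₁) ∈ ψ₁.target := by
    rw [← H₁.eq e₁ he₁]; exact ψ₁.map_source he₁
  have hs1 : ψ₁.symm (m (h e₁)) = e₁ := H₁.left he₁
  set φ : Cm d → (Cm d →L[ℂ] V) := fun x => KK h m (ψ₁.symm x) with hφ
  have hφA : AnalyticAt ℂ φ (m (h e₁)) := FH.KK ψ₁ H₁ _ ht
  have hker : ∀ x ∈ ψ₁.target, LinearMap.ker (fderiv ℂ φ x : Cm d →ₗ[ℂ] (Cm d →L[ℂ] V)) =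
      Nn h m (ψ₁.symm x) := by
    intro x hx
    rw [hφ, H₁.fderiv_KK hx]
    rfl
  have hsy : Tendsto ψ₁.symm (𝓝 (m (h e₁))) (𝓝 e₁) := by
    have := ψ₁.continuousAt_symm ht
    rwa [ContinuousAt, hs1] at this
  obtain ⟨ε, hε, hleaf⟩ := H349.D.leaf_local (φ := φ) (x := m (h e₁)) (W' := V)
    (ContinuousLinearMap.id ℂ (Cm d →L[ℂ] V)) (fun a b hab => hab) hφA
    (by
      filter_upwards [ψ₁.open_target.mem_nhds ht] with z hz a b
      exact H₁.KK_symm hz a b)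
    (by
      filter_upwards [ψ₁.open_target.mem_nhds ht, hsy.eventually hmin] with z hz hz2
      rw [hker z hz, hker _ ht, hs1]
      exact hz2)
  refine ⟨fun v => Iff.rfl, ψ₁, H₁, he₁, ?_⟩
  have h1 : ∀ᶠ u in 𝓝 (0 : Cm d), ‖u‖ < ε := by
    have : Continuous fun u : Cm d => ‖u‖ := continuous_norm
    exact this.continuousAt.eventually (gt_mem_nhds (show ‖(0 : Cm d)‖ < ε by
      rw [norm_zero]; exact hε))
  filter_upwards [h1] with u hun hu
  have h2 := hleaf u (by rw [hφ, H₁.fderiv_KK ht, hs1]; exact hu) hun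
  have h3 : KK h m (ψ₁.symm (m (h e₁) + u)) = KK h m (ψ₁.symm (m (h e₁))) := h2
  rw [h3, hs1]

section group
variable {Γ : Type*} [Group Γ] [MulAction Γ E] [ContinuousConstSMul Γ E] {c : Γ → V}

/-- `flow_zero` for vector-valued functions -/
theorem flow_zero' [FiniteDimensional ℂ V] {W : Type*} [NormedAddCommGroup W] [NormedSpace ℂ W]
    (hI : IsImm d h) (hC : Cpt h c) (H₁ : Flat h m ψ₁)
    (he₁ : e₁ ∈ ψ₁.source) {G : E → W} (hG : FH h m G) (hGΓ : ∀ (γ : Γ) e, G (γ • e) = G e)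
    {u : Cm d} (hu : u ∈ Nn h m e₁) (hY : e₁ ∈ Ys h m e₁) : Dw h m u G e₁ = 0 := by
  have ht : m (h e₁) ∈ ψ₁.target := by
    rw [← H₁.eq e₁ he₁]; exact ψ₁.map_source he₁
  refine (NormedSpace.eq_zero_iff_forall_dual_eq_zero ℂ (x := Dw h m u G e₁)).2 fun l => ?_
  have hF : FH h m (fun e => l (G e)) := fun ψ H x hx => (l.analyticAt _).comp (hG ψ H x hx)
  have h1 := flow_zero hI hC H₁ he₁ hF (fun γ e => by rw [hGΓ]) hu e₁ hY
  have h2 : Dw h m u (fun e => l (G e)) e₁ = l (Dw h m u G e₁) := by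
    unfold Dw
    rw [H₁.dF_eq he₁, H₁.dF_eq he₁]
    have h3 : HasFDerivAt (fun x => l (G (ψ₁.symm x)))
        (l.comp (fderiv ℂ (fun x => G (ψ₁.symm x)) (m (h e₁)))) (m (h e₁)) :=
      l.hasFDerivAt.comp _ (hG ψ₁ H₁ _ ht).differentiableAt.hasFDerivAt
    rw [h3.fderiv]
    rfl
  rw [h2] at h1
  exact h1

/-- **Ueno**: the kernel of the derivative of the Gauss map at a generic point. -/
theorem Nn_bs [PreconnectedSpace E] [FiniteDimensional ℂ V] (hI : IsImm d h) (hC : Cpt h c)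
    (H₁ : Flat h m ψ₁) (he₁ : e₁ ∈ ψ₁.source)
    (hmin : ∀ᶠ e in 𝓝 e₁, Module.finrank ℂ (Nn h m e₁) ≤ Module.finrank ℂ (Nn h m e)) {u : Cm d}
    (hu : u ∈ Nn h m e₁) : dF h m h e₁ u ∈ bs hI := by
  have hcV : CompleteSpace V := FiniteDimensional.complete ℂ V
  have hY := mem_Ys H₁ he₁ hmin
  have ht : m (h e₁) ∈ ψ₁.target := by
    rw [← H₁.eq e₁ he₁]; exact ψ₁.map_source he₁
  have hs1 : ψ₁.symm (m (h e₁)) = e₁ := H₁.left he₁
  obtain ⟨r, hr, hball⟩ := Metric.isOpen_iff.1 ψ₁.open_target _ ht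
  have hKKΓ : ∀ (γ : Γ) e, KK h m (γ • e) = KK h m e := fun γ e =>
    dF_smul hC.add (G := h) (hC.add γ) e
  -- the flat derivatives of the Gauss map
  have hFk : ∀ (w : Cm d) (k : ℕ), FH h m ((Dw h m w)^[k] (KK h m)) ∧
      ∀ (γ : Γ) e, (Dw h m w)^[k] (KK h m) (γ • e) = (Dw h m w)^[k] (KK h m) e := by
    intro w k
    induction k with
    | zero => exact ⟨FH.KK, hKKΓ⟩
    | succ k ih =>
      rw [Function.iterate_succ_apply']
      exact ⟨ih.1.Dw w, fun γ e => Dw_smul hC.add ih.2 w γ e⟩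
  have hzero : ∀ x ∈ ball (m (h e₁)) r, Dw h m u (KK h m) (ψ₁.symm x) = 0 := by
    intro x hx
    set w := x - m (h e₁) with hw
    rcases eq_or_ne w 0 with hw0 | hw0
    · have hx1 : x = m (h e₁) := sub_eq_zero.1 hw0
      rw [hx1, hs1]
      exact hu
    have hwp : 0 < ‖w‖ := norm_pos_iff.2 hw0
    have hwr : ‖w‖ < r := by rw [hw, ← dist_eq_norm]; exact hx
    have hmem : ∀ s ∈ ball (0 : ℂ) (r / ‖w‖), m (h e₁) + s • w ∈ ψ₁.target := by
      intro s hs
      refine hball ?_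
      rw [mem_ball, dist_eq_norm, add_sub_cancel_left, norm_smul]
      rw [mem_ball_zero_iff, lt_div_iff₀ hwp] at hs
      exact hs
    have key := line_zero (r := r / ‖w‖)
      (g := fun k s => Dw h m u ((Dw h m w)^[k] (KK h m)) (ψ₁.symm (m (h e₁) + s • w)))
      (fun k s hs => by
        have hxt := hmem s hs
        have h1 : FH h m (Dw h m u ((Dw h m w)^[k] (KK h m))) := (hFk w k).1.Dw u
        have h2 : HasDerivAt (fun s : ℂ => m (h e₁) + s • w) w s := by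
          simpa using ((hasDerivAt_id s).smul_const w).const_add (m (h e₁))
        have h3 := (h1 ψ₁ H₁ _ hxt).differentiableAt.hasFDerivAt.comp_hasDerivAt s h2
        have h4 : fderiv ℂ (fun x => Dw h m u ((Dw h m w)^[k] (KK h m)) (ψ₁.symm x))
            (m (h e₁) + s • w) w =
            Dw h m u ((Dw h m w)^[k + 1] (KK h m)) (ψ₁.symm (m (h e₁) + s • w)) := by
          rw [← H₁.Dw_symm hxt, Function.iterate_succ_apply']
          exact Dw_comm (hFk w k).1 H₁ hxt w u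
        rw [h4] at h3
        exact h3)
      (fun k => by
        show Dw h m u ((Dw h m w)^[k] (KK h m)) (ψ₁.symm (m (h e₁) + (0 : ℂ) • w)) = 0
        rw [zero_smul, add_zero, hs1]
        exact flow_zero' hI hC H₁ he₁ (hFk w k).1 (hFk w k).2 hu hY)
      1 (by rw [mem_ball_zero_iff, norm_one, one_lt_div hwp]; exact hwr)
    have h5 : m (h e₁) + (1 : ℂ) • w = x := by rw [one_smul, hw]; abel
    simp only [Function.iterate_zero, id_eq, h5] at key
    exact key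
  -- `κ(x) u` is constant
  have hconst : ∀ x ∈ ball (m (h e₁)) r, KK h m (ψ₁.symm x) u = KK h m e₁ u := by
    intro x hx
    have hd : ∀ y ∈ ball (m (h e₁)) r, HasFDerivAt (fun x => KK h m (ψ₁.symm x) u)
        (0 : Cm d →L[ℂ] V) y := by
      intro y hy
      have h1 := (FH.KK ψ₁ H₁ _ (hball hy)).differentiableAt.hasFDerivAt
      have h2 : HasFDerivAt (fun x => KK h m (ψ₁.symm x) u)
          ((ContinuousLinearMap.apply ℂ V u).comp (fderiv ℂ (fun x => KK h m (ψ₁.symm x)) y)) y :=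
        (ContinuousLinearMap.apply ℂ V u).hasFDerivAt.comp y h1
      have h3 : (ContinuousLinearMap.apply ℂ V u).comp
          (fderiv ℂ (fun x => KK h m (ψ₁.symm x)) y) = 0 := by
        ext1 w
        show fderiv ℂ (fun x => KK h m (ψ₁.symm x)) y w u = 0
        rw [H₁.KK_symm (hball hy), ← H₁.Dw_symm (hball hy), hzero y hy]
        rfl
      rw [h3] at h2
      exact h2
    have h4 := isOpen_ball.is_const_of_fderiv_eq_zero (𝕜 := ℂ) (convex_ball (m (h e₁)) r).isPreconnected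
      (f := fun x => KK h m (ψ₁.symm x) u)
      (fun y hy => (hd y hy).differentiableAt.differentiableWithinAt)
      (fun y hy => (hd y hy).fderiv) hx (mem_ball_self hr)
    have h5 : KK h m (ψ₁.symm x) u = KK h m (ψ₁.symm (m (h e₁))) u := h4
    rw [h5, hs1]
  rw [mem_bs]
  refine tan_propagate hI (e₁ := e₁) ?_
  have hU : ψ₁.source ∩ ψ₁ ⁻¹' ball (m (h e₁)) r ∈ 𝓝 e₁ :=
    (ψ₁.isOpen_inter_preimage isOpen_ball).mem_nhds
      ⟨he₁, show ψ₁ e₁ ∈ ball (m (h e₁)) r by rw [H₁.eq e₁ he₁]; exact mem_ball_self hr⟩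
  filter_upwards [hU] with e he
  have h1 := hconst _ he.2
  rw [ψ₁.left_inv he.1] at h1
  have h2 := H₁.dF_tan he.1 u
  have h3 : dF h m h e u = dF h m h e₁ u := h1
  rw [h3] at h2
  exact h2

theorem bs_Nn [CompleteSpace V] (hI : IsImm d h) (H₁ : Flat h m ψ₁) (he₁ : e₁ ∈ ψ₁.source) {v : V}
    (hv : v ∈ bs hI) : m v ∈ Nn h m e₁ := by
  have ht : m (h e₁) ∈ ψ₁.target := by
    rw [← H₁.eq e₁ he₁]; exact ψ₁.map_source he₁
  have hs1 : ψ₁.symm (m (h e₁)) = e₁ := H₁.left he₁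
  rw [mem_Nn]
  have h0 : dF h m (KK h m) e₁ = fderiv ℂ (fun x => KK h m (ψ₁.symm x)) (m (h e₁)) := by
    rw [H₁.fderiv_KK ht, hs1]
  rw [h0]
  ext1 w
  rw [H₁.KK_symm ht]
  have h1 := (FH.KK ψ₁ H₁ _ ht).differentiableAt.hasFDerivAt
  have h2 : HasFDerivAt (fun x => KK h m (ψ₁.symm x) (m v))
      ((ContinuousLinearMap.apply ℂ V (m v)).comp
        (fderiv ℂ (fun x => KK h m (ψ₁.symm x)) (m (h e₁)))) (m (h e₁)) :=
    (ContinuousLinearMap.apply ℂ V (m v)).hasFDerivAt.comp (m (h e₁)) h1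
  have h3 : (fun x => KK h m (ψ₁.symm x) (m v)) =ᶠ[𝓝 (m (h e₁))] fun _ => v := by
    filter_upwards [ψ₁.open_target.mem_nhds ht] with x hx
    exact (H₁.tan_dF (ψ₁.map_target hx)).1 (hv _)
  have h4 := h2.unique ((hasFDerivAt_const v (m (h e₁))).congr_of_eventuallyEq h3)
  exact congrArg (fun L : Cm d →L[ℂ] V => L w) h4

theorem IsAct.flat [T2Space E] {hI : IsImm d h} {act : bs hI → E → E} (ha : IsAct hI c act)
    (H : Flat h m ψ) {e : E} (he : e ∈ ψ.source) {r : ℝ} (hball : ball (m (h e)) r ⊆ ψ.target)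
    {v : bs hI} (hv : ‖m v‖ < r) : act v e = ψ.symm (m (h e) + m v) := by
  have hn : ∀ t ∈ Icc (0 : ℝ) 1, ‖t • m v‖ < r := by
    intro t ht
    rw [norm_smul, Real.norm_of_nonneg ht.1]
    exact (mul_le_of_le_one_left (norm_nonneg _) ht.2).trans_lt hv
  have hmem : ∀ t ∈ Icc (0 : ℝ) 1, m (h e) + t • m v ∈ ψ.target := fun t ht => hball (by
    rw [mem_ball, dist_eq_norm, add_sub_cancel_left]; exact hn t ht)
  have hs1 : ψ.symm (m (h e)) = e := H.left he
  have hsm : ∀ t : ℝ, ((t • v : bs hI) : V) = t • (v : V) := fun t => rfl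
  have hmv : ∀ t : ℝ, m (t • (v : V)) = t • m v := by
    intro t
    rw [← Complex.coe_smul t (v : V), map_smul, Complex.coe_smul]
  have key := lift_unique hI.locallyInjective (isPreconnected_Icc (a := (0 : ℝ)) (b := 1))
    (g₁ := fun t : ℝ => act (t • v) e) (g₂ := fun t : ℝ => ψ.symm (m (h e) + t • m v))
    (ha.cont.comp (by fun_prop : Continuous fun t : ℝ => ((t • v, e) : bs hI × E))).continuousOn
    (ψ.continuousOn_symm.comp (by fun_prop) hmem)
    (fun t ht => by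
      have h1 : ((t • v : bs hI) : V) ∈ bs hI := (t • v).2
      have h2 := H.trans (x := m (h e)) h1 hball (by rw [hsm, hmv]; exact hn t ht)
      rw [hsm, hmv] at h2
      rw [ha.lift, h2, hs1, hsm])
    (a := 0) ⟨le_rfl, zero_le_one⟩ (by rw [zero_smul, ha.zero, zero_smul, add_zero, hs1]) 1
    ⟨zero_le_one, le_rfl⟩
  simpa using key

/-- a generic point: near it, the points with the same tangent space are in its orbit -/
theorem plaque [T2Space E] [PreconnectedSpace E] [FiniteDimensional ℂ V] {hI : IsImm d h}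
    (hC : Cpt h c) {act : bs hI → E → E} (ha : IsAct hI c act)
    (H₁ : Flat h m ψ₁) (he₁ : e₁ ∈ ψ₁.source)
    (hmin : ∀ᶠ e in 𝓝 e₁, Module.finrank ℂ (Nn h m e₁) ≤ Module.finrank ℂ (Nn h m e)) :
    ∃ N ∈ 𝓝 e₁, ∀ e ∈ Zs h e₁, e ∈ N → ∃ v, act v e₁ = e := by
  have hcV : CompleteSpace V := FiniteDimensional.complete ℂ V
  have ht : m (h e₁) ∈ ψ₁.target := by
    rw [← H₁.eq e₁ he₁]; exact ψ₁.map_source he₁
  have hs1 : ψ₁.symm (m (h e₁)) = e₁ := H₁.left he₁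
  obtain ⟨r, hr, hball⟩ := Metric.isOpen_iff.1 ψ₁.open_target _ ht
  obtain ⟨K', hK'⟩ := (Nn h m e₁).exists_isCompl
  -- `κ` is injective at `x₁` along `K'`
  set φ : K' → (Cm d →L[ℂ] V) := fun c => KK h m (ψ₁.symm (m (h e₁) + c)) with hφ
  have hφd : HasFDerivAt φ ((dF h m (KK h m) e₁).comp K'.subtypeL) 0 := by
    have h1 : HasFDerivAt (fun x => KK h m (ψ₁.symm x)) (dF h m (KK h m) e₁)
        (m (h e₁) + ((0 : K') : Cm d)) := by
      have h2 : dF h m (KK h m) e₁ = fderiv ℂ (fun x => KK h m (ψ₁.symm x)) (m (h e₁)) := by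
        rw [H₁.fderiv_KK ht, hs1]
      rw [h2]
      have h3 : m (h e₁) + ((0 : K') : Cm d) = m (h e₁) := by simp
      rw [h3]
      exact (FH.KK ψ₁ H₁ _ ht).differentiableAt.hasFDerivAt
    exact h1.comp (0 : K') ((K'.subtypeL.hasFDerivAt).const_add (m (h e₁)))
  have hinj : Function.Injective ((dF h m (KK h m) e₁).comp K'.subtypeL) := by
    rw [injective_iff_map_eq_zero]
    intro c hc
    have h1 : (c : Cm d) ∈ Nn h m e₁ := hc
    have h2 : (c : Cm d) ∈ Nn h m e₁ ⊓ K' := ⟨h1, c.2⟩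
    rw [hK'.inf_eq_bot, Submodule.mem_bot] at h2
    exact Subtype.ext h2
  have hanti : ∃ C, AntilipschitzWith C ((dF h m (KK h m) e₁).comp K'.subtypeL) := by
    obtain ⟨C, hC0, hC⟩ := LinearMap.exists_antilipschitzWith
      (((dF h m (KK h m) e₁).comp K'.subtypeL : K' →L[ℂ] _) : K' →ₗ[ℂ] (Cm d →L[ℂ] V))
      (LinearMap.ker_eq_bot.2 hinj)
    exact ⟨C, hC⟩
  have hne : ∀ᶠ c : K' in 𝓝 0, φ c = φ 0 → c = 0 := by
    have h1 : ∀ᶠ c : K' in 𝓝[≠] 0, φ c ≠ φ 0 := hφd.eventually_ne hanti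
    rw [eventually_nhdsWithin_iff] at h1
    filter_upwards [h1] with c hc h2
    by_contra hc0
    exact hc hc0 h2
  obtain ⟨ε, hε, hne'⟩ := Metric.eventually_nhds_iff_ball.1 hne
  -- the projections
  let P : Cm d →L[ℂ] Nn h m e₁ := ((Nn h m e₁).projectionOnto K' hK').toContinuousLinearMap
  have hdec : ∀ x : Cm d, x - (P x : Cm d) ∈ K' := by
    intro x
    have h1 : (Nn h m e₁).projectionOnto K' hK' (x - (P x : Cm d)) = 0 := by
      rw [map_sub, Submodule.projectionOnto_apply_left]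
      exact sub_self _
    exact (Submodule.projectionOnto_apply_eq_zero_iff hK').1 h1
  have hP0 : ∀ᶠ e in 𝓝 e₁, ‖((P (m (h e) - m (h e₁)) : Nn h m e₁) : Cm d)‖ < r / 2 ∧
      ‖(m (h e) - m (h e₁)) - ((P (m (h e) - m (h e₁)) : Nn h m e₁) : Cm d)‖ < ε := by
    have h1 : ContinuousAt (fun e => m (h e) - m (h e₁)) e₁ :=
      (m.continuous.continuousAt.comp (H₁.contAt he₁)).sub continuousAt_const
    have h2 : ContinuousAt (fun e => ((P (m (h e) - m (h e₁)) : Nn h m e₁) : Cm d)) e₁ :=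
      (((Nn h m e₁).subtypeL.comp P).continuous.continuousAt).comp h1
    refine Filter.Eventually.and ?_ ?_
    · exact h2.norm.eventually (gt_mem_nhds (by simp; positivity))
    · exact (h1.sub h2).norm.eventually (gt_mem_nhds (by simp; positivity))
  refine ⟨_, inter_mem hP0 ((ψ₁.isOpen_inter_preimage isOpen_ball).mem_nhds
      ⟨he₁, show ψ₁ e₁ ∈ ball (m (h e₁)) (r / 2) by
        rw [H₁.eq e₁ he₁]; exact mem_ball_self (by positivity)⟩), ?_⟩
  rintro e heZ ⟨⟨hk, hcn⟩, hes, heb⟩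
  set k : Cm d := ((P (m (h e) - m (h e₁)) : Nn h m e₁) : Cm d) with hkdef
  have hkN : k ∈ Nn h m e₁ := (P (m (h e) - m (h e₁))).2
  have hvb := Nn_bs hI hC H₁ he₁ hmin hkN
  set v : bs hI := ⟨dF h m h e₁ k, hvb⟩ with hv
  have hmv : m (v : V) = k := H₁.m_dF he₁ k
  have hball' : ball (m (h e)) (r / 2) ⊆ ψ₁.target := by
    refine Subset.trans ?_ hball
    intro y hy
    have h8 : dist (ψ₁ e) (m (h e₁)) < r / 2 := heb
    rw [H₁.eq e hes] at h8
    rw [mem_ball] at hy ⊢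
    linarith [dist_triangle y (m (h e)) (m (h e₁))]
  have hmnv : m (((-v : bs hI)) : V) = -k := by
    have : (((-v : bs hI)) : V) = -(v : V) := rfl
    rw [this, map_neg, hmv]
  have hact := ha.flat H₁ hes hball' (v := -v) (by rw [hmnv, norm_neg]; exact hk)
  set c₀ : K' := ⟨(m (h e) - m (h e₁)) - k, hdec _⟩ with hc₀
  have hxc : m (h e) + m (((-v : bs hI)) : V) = m (h e₁) + (c₀ : Cm d) := by
    rw [hmnv, hc₀]
    show m (h e) + -k = m (h e₁) + ((m (h e) - m (h e₁)) - k)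
    abel
  rw [hxc] at hact
  have hxt : m (h e₁) + (c₀ : Cm d) ∈ ψ₁.target := by
    rw [← hxc]
    refine hball' ?_
    rw [mem_ball, dist_eq_norm, add_sub_cancel_left, hmnv, norm_neg]
    exact hk
  have hZ' : ψ₁.symm (m (h e₁) + (c₀ : Cm d)) ∈ Zs h e₁ := by
    rw [← hact]
    intro w
    rw [ha.tan]
    exact heZ w
  have h1 : φ c₀ = φ 0 := by
    have h2 := (Zs_iff H₁ H₁ (ψ₁.map_target hxt) he₁).1 hZ'
    show KK h m (ψ₁.symm (m (h e₁) + (c₀ : Cm d))) =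
      KK h m (ψ₁.symm (m (h e₁) + ((0 : K') : Cm d)))
    rw [ZeroMemClass.coe_zero, add_zero, hs1]
    exact h2
  have h2 : c₀ = 0 := hne' c₀ (by rw [mem_ball_zero_iff]; exact hcn) h1
  rw [h2, ZeroMemClass.coe_zero, add_zero, hs1] at hact
  refine ⟨v, ?_⟩
  have h3 := ha.neg (-v) e
  rw [neg_neg, hact] at h3
  exact h3

/-- **Block R0b + R0c**: the lattice of `bs`. -/
theorem exists_lattice [T2Space E] [PreconnectedSpace E] [FiniteDimensional ℂ V] {hI : IsImm d h}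
    (hC : Cpt h c) {act : bs hI → E → E} (ha : IsAct hI c act)
    (H₁ : Flat h m ψ₁) (he₁ : e₁ ∈ ψ₁.source)
    (hmin : ∀ᶠ e in 𝓝 e₁, Module.finrank ℂ (Nn h m e₁) ≤ Module.finrank ℂ (Nn h m e)) :
    ∃ R : ℝ, ∀ v : bs hI, ∃ l : bs hI, (∃ γ : Γ, ∀ e, act l e = γ • e) ∧ ‖v + l‖ ≤ R := by
  obtain ⟨N, hN, hpl⟩ := plaque hC ha H₁ he₁ hmin
  obtain ⟨R, hR⟩ := ha.compact_orbit hC (isClosed_Zs hI e₁)
    (fun γ e he => Zs_smul hC.add he γ) (fun v e he w => (ha.tan v e w).trans (he w))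
    (fun w => Iff.rfl) hN hpl
  refine ⟨R, fun v => ?_⟩
  obtain ⟨l, ⟨γ, hγ⟩, hl⟩ := hR v
  exact ⟨l, ⟨γ, ha.stab hC hγ⟩, hl⟩

/-- a generic point exists in every flat chart -/
theorem exists_generic (H : Flat h m ψ) {e₀ : E} (he₀ : e₀ ∈ ψ.source) {U : Set E} (hU : IsOpen U)
    (heU : e₀ ∈ U) : ∃ e₁ ∈ ψ.source ∩ U,
    ∀ᶠ e in 𝓝 e₁, Module.finrank ℂ (Nn h m e₁) ≤ Module.finrank ℂ (Nn h m e) := by
  obtain ⟨e₁, he₁, hmin⟩ := WellFounded.has_min (measure fun e => Module.finrank ℂ (Nn h m e)).wf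
    (ψ.source ∩ U) ⟨e₀, he₀, heU⟩
  refine ⟨e₁, he₁, ?_⟩
  filter_upwards [(ψ.open_source.inter hU).mem_nhds he₁] with e he
  exact not_lt.1 (hmin e he)

/-- **The lattice of `bs`**, without choices. -/
theorem lattice [T2Space E] [ConnectedSpace E] [FiniteDimensional ℂ V] {hI : IsImm d h}
    (hC : Cpt h c) {act : bs hI → E → E} (ha : IsAct hI c act) :
    ∃ R : ℝ, ∀ v : bs hI, ∃ l : bs hI, (∃ γ : Γ, ∀ e, act l e = γ • e) ∧ ‖v + l‖ ≤ R := by
  obtain ⟨e₀⟩ : Nonempty E := inferInstance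
  obtain ⟨m, ψ, H, he⟩ := hI e₀
  obtain ⟨e₁, he₁, hmin⟩ := exists_generic H he isOpen_univ (mem_univ e₀)
  exact exists_lattice hC ha H he₁.1 hmin

/-- the dimension of `bs` -/
theorem finrank_bs [PreconnectedSpace E] [FiniteDimensional ℂ V] (hI : IsImm d h) (hC : Cpt h c)
    (H₁ : Flat h m ψ₁) (he₁ : e₁ ∈ ψ₁.source)
    (hmin : ∀ᶠ e in 𝓝 e₁, Module.finrank ℂ (Nn h m e₁) ≤ Module.finrank ℂ (Nn h m e)) :
    Module.finrank ℂ (bs hI) = Module.finrank ℂ (Nn h m e₁) := by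
  have hcV : CompleteSpace V := FiniteDimensional.complete ℂ V
  let f : bs hI →ₗ[ℂ] Nn h m e₁ := ((m : V →ₗ[ℂ] Cm d).comp (bs hI).subtype).codRestrict _
    fun v => bs_Nn hI H₁ he₁ v.2
  refine LinearEquiv.finrank_eq (LinearEquiv.ofBijective f ⟨?_, ?_⟩)
  · rw [← LinearMap.ker_eq_bot, LinearMap.ker_eq_bot']
    intro v hv
    have h1 : m (v : V) = 0 := congrArg Subtype.val hv
    have h2 := (H₁.tan_dF he₁).1 (v.2 e₁)
    rw [h1, map_zero] at h2
    exact Subtype.ext h2.symm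
  · intro u
    exact ⟨⟨_, Nn_bs hI hC H₁ he₁ hmin u.2⟩, Subtype.ext (H₁.m_dF he₁ (u : Cm d))⟩

end group

end Vale.Agent.P281.H349.O
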