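import Mathlib

/-!
# P281, project T-UD (helper349, block R0a): actions obtained by lifting translations

`h : E → V` is continuous and locally injective, and translations by small vectors `L v` lift to `E`;
then all translations lift, to an action on `E`.
-/

open Set Filter Metric Topology

set_option linter.all false

noncomputable section

namespace Vale.Agent.P281.H349.O

variable {E V B : Type*} [TopologicalSpace E] [T2Space E] [NormedAddCommGroup V] [NormedSpace ℝ V]
  [NormedAddCommGroup B] [NormedSpace ℝ B]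

/-- uniqueness of lifts on connected sets -/
theorem lift_unique {A : Type*} [TopologicalSpace A] {h : E → V} (hi : IsLocallyInjective h)
    {s : Set A} (hs : IsPreconnected s) {g₁ g₂ : A → E} (h₁ : ContinuousOn g₁ s)
    (h₂ : ContinuousOn g₂ s) (he : ∀ a ∈ s, h (g₁ a) = h (g₂ a)) {a : A} (ha : a ∈ s)
    (haa : g₁ a = g₂ a) : ∀ a ∈ s, g₁ a = g₂ a :=
  (T2Space.isSeparatedMap h).eqOn_of_comp_eqOn hi hs h₁ h₂ he ha haa

/-- `a v e` is a lift of the translation by `L v`, for `‖v‖ < ε` -/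
structure PAct (h : E → V) (L : B →ₗ[ℝ] V) (ε : ℝ) (a : B → E → E) : Prop where
  zero : ∀ e, a 0 e = e
  lift : ∀ v, ‖v‖ < ε → ∀ e, h (a v e) = h e + L v
  cont : ContinuousOn (fun p : B × E => a p.1 p.2) (ball 0 ε ×ˢ univ)

variable {h : E → V} {L : B →ₗ[ℝ] V}

theorem PAct.cont_v {ε : ℝ} {a : B → E → E} (ha : PAct h L ε a) {A : Type*} [TopologicalSpace A]
    {s : Set A} {f : A → B} {g : A → E} (hf : ContinuousOn f s) (hg : ContinuousOn g s)
    (hs : ∀ x ∈ s, ‖f x‖ < ε) : ContinuousOn (fun x => a (f x) (g x)) s :=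
  ha.cont.comp (hf.prodMk hg) fun x hx => ⟨mem_ball_zero_iff.2 (hs x hx), mem_univ _⟩

/-- uniqueness of actions -/
theorem PAct.unique (hi : IsLocallyInjective h) {ε ε' : ℝ} {a a' : B → E → E}
    (ha : PAct h L ε a) (ha' : PAct h L ε' a') {v : B} (hv : ‖v‖ < ε) (hv' : ‖v‖ < ε') (e : E) :
    a v e = a' v e := by
  have hs : IsPreconnected (Icc (0 : ℝ) 1) := isPreconnected_Icc
  have hn : ∀ t ∈ Icc (0 : ℝ) 1, ‖t • v‖ ≤ ‖v‖ := by
    intro t ht
    rw [norm_smul, Real.norm_of_nonneg ht.1]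
    exact mul_le_of_le_one_left (norm_nonneg v) ht.2
  have h1 := lift_unique hi hs (g₁ := fun t : ℝ => a (t • v) e) (g₂ := fun t : ℝ => a' (t • v) e)
    (ha.cont_v (by fun_prop) continuousOn_const fun t ht => (hn t ht).trans_lt hv)
    (ha'.cont_v (by fun_prop) continuousOn_const fun t ht => (hn t ht).trans_lt hv')
    (fun t ht => by
      rw [ha.lift _ ((hn t ht).trans_lt hv), ha'.lift _ ((hn t ht).trans_lt hv')])
    (a := 0) ⟨le_rfl, zero_le_one⟩ (by rw [zero_smul, ha.zero, ha'.zero]) 1 ⟨zero_le_one, le_rfl⟩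
  simpa using h1

/-- composition of small translations -/
theorem PAct.mul {ε : ℝ} {a a' : B → E → E} (ha : PAct h L ε a) (n : ℕ) (hn : 0 < n) :
    PAct h L (n * ε) fun v e => (a ((n : ℝ)⁻¹ • v))^[n] e := by
  have hn0 : (0 : ℝ) < n := by exact_mod_cast hn
  have hsm : ∀ v : B, ‖v‖ < n * ε → ‖(n : ℝ)⁻¹ • v‖ < ε := by
    intro v hv
    rw [norm_smul, norm_inv, Real.norm_of_nonneg hn0.le, inv_mul_lt_iff₀ hn0]
    exact hv
  have key : ∀ k : ℕ, (∀ v, ‖v‖ < n * ε → ∀ e, h ((a ((n : ℝ)⁻¹ • v))^[k] e) =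
      h e + L (((k : ℝ) * (n : ℝ)⁻¹) • v)) ∧
      ContinuousOn (fun p : B × E => (a ((n : ℝ)⁻¹ • p.1))^[k] p.2) (ball 0 (n * ε) ×ˢ univ) := by
    intro k
    induction k with
    | zero =>
      refine ⟨fun v hv e => by simp, ?_⟩
      simpa using continuousOn_snd
    | succ k ih =>
      refine ⟨fun v hv e => ?_, ?_⟩
      · rw [Function.iterate_succ_apply', ha.lift _ (hsm v hv), ih.1 v hv, add_assoc, ← map_add,
          ← add_smul]
        congr 3
        push_cast
        ring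
      · simp only [Function.iterate_succ_apply']
        refine ha.cont_v (by fun_prop) ih.2 fun p hp => hsm _ (mem_ball_zero_iff.1 hp.1)
  refine ⟨fun e => ?_, fun v hv e => ?_, (key n).2⟩
  · show (a ((n : ℝ)⁻¹ • (0 : B)))^[n] e = e
    rw [smul_zero]
    exact Function.iterate_fixed (ha.zero e) n
  · rw [(key n).1 v hv e, mul_inv_cancel₀ hn0.ne', one_smul]

/-- **All translations lift**, to an action. -/
theorem exists_act (hi : IsLocallyInjective h) {ε : ℝ} (hε : 0 < ε) {a : B → E → E}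
    (ha : PAct h L ε a) : ∃ act : B → E → E, Continuous (fun p : B × E => act p.1 p.2) ∧
      (∀ e, act 0 e = e) ∧ (∀ v e, h (act v e) = h e + L v) ∧
      ∀ v w e, act (v + w) e = act v (act w e) := by
  have hex : ∀ v : B, ∃ n : ℕ, 0 < n ∧ ‖v‖ < n * ε := by
    intro v
    obtain ⟨n, hn⟩ := exists_nat_gt (‖v‖ / ε)
    refine ⟨n + 1, Nat.succ_pos n, ?_⟩
    rw [div_lt_iff₀ hε] at hn
    push_cast
    nlinarith
  choose N hN0 hN using hex
  let p : ℕ → B → E → E := fun n v e => (a ((n : ℝ)⁻¹ • v))^[n] e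
  have hp : ∀ n : ℕ, 0 < n → PAct h L (n * ε) (p n) := fun n hn => ha.mul (a' := a) n hn
  let act : B → E → E := fun v e => p (N v) v e
  have hact : ∀ n : ℕ, 0 < n → ∀ v, ‖v‖ < n * ε → ∀ e, act v e = p n v e := fun n hn v hv e =>
    (hp _ (hN0 v)).unique hi (hp n hn) (hN v) hv e
  have hcont : Continuous (fun q : B × E => act q.1 q.2) := by
    rw [continuous_iff_continuousAt]
    rintro ⟨v, e⟩
    have h1 : (ball (0 : B) (N v * ε)) ×ˢ (univ : Set E) ∈ 𝓝 (v, e) :=
      prod_mem_nhds (isOpen_ball.mem_nhds (mem_ball_zero_iff.2 (hN v))) univ_mem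
    have h2 : ContinuousAt (fun q : B × E => p (N v) q.1 q.2) (v, e) :=
      (hp _ (hN0 v)).cont.continuousAt h1
    refine h2.congr ?_
    filter_upwards [h1] with q hq
    exact (hact _ (hN0 v) q.1 (mem_ball_zero_iff.1 hq.1) q.2).symm
  have h0 : ∀ e, act 0 e = e := fun e => (hp _ (hN0 0)).zero e
  have hl : ∀ v e, h (act v e) = h e + L v := fun v e => (hp _ (hN0 v)).lift v (hN v) e
  refine ⟨act, hcont, h0, hl, fun v w e => ?_⟩
  have h1 := lift_unique hi (isPreconnected_univ (α := ℝ)) (g₁ := fun t : ℝ => act (t • v + w) e)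
    (g₂ := fun t : ℝ => act (t • v) (act w e))
    (hcont.comp (by fun_prop : Continuous fun t : ℝ => ((t • v + w, e) : B × E))).continuousOn
    (hcont.comp (by fun_prop : Continuous fun t : ℝ => ((t • v, act w e) : B × E))).continuousOn
    (fun t _ => by simp only [hl, map_add]; abel) (a := 0) (mem_univ _)
    (by simp only [zero_smul, zero_add, h0]) 1 (mem_univ _)
  simpa using h1

end Vale.Agent.P281.H349.O
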