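import Vale.Agent.P281.H349.O.Act

/-!
# P281, project T-UD (helper349, block R0a): flat charts of an immersed manifold

`h : E → V` is a holomorphic immersion; flat charts are the charts `m ∘ h`, `m : V → ℂ^d` linear.
-/

open Set Filter Metric Topology

set_option linter.all false

noncomputable section

namespace Vale.Agent.P281.H349.O

/-- `ℂ^d` -/
abbrev Cm (d : ℕ) : Type := Fin d → ℂ

variable {d : ℕ} {E V : Type*} [TopologicalSpace E] [NormedAddCommGroup V] [NormedSpace ℂ V]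

/-- The chart `ψ` is `m ∘ h`, and `h` is holomorphic. -/
structure Flat (h : E → V) (m : V →L[ℂ] Cm d) (ψ : OpenPartialHomeomorph E (Cm d)) : Prop where
  eq : ∀ e ∈ ψ.source, ψ e = m (h e)
  an : ∀ x ∈ ψ.target, AnalyticAt ℂ (fun x => h (ψ.symm x)) x

/-- `h : E → V` is a holomorphic immersion. -/
def IsImm (d : ℕ) (h : E → V) : Prop :=
  ∀ e₀ : E, ∃ (m : V →L[ℂ] Cm d) (ψ : OpenPartialHomeomorph E (Cm d)), Flat h m ψ ∧ e₀ ∈ ψ.source

/-- `v` is tangent to the image of `h` at `e`. -/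
def Tan (h : E → V) (e : E) (v : V) : Prop :=
  ∃ γ : ℂ → E, ContinuousAt γ 0 ∧ γ 0 = e ∧ HasDerivAt (fun t => h (γ t)) v 0

/-- Flat charts with a given linear map. -/
theorem flat_of {h : E → V} (φ : OpenPartialHomeomorph E (Cm d))
    (hφ : ∀ x ∈ φ.target, AnalyticAt ℂ (fun x => h (φ.symm x)) x) {e₀ : E} (he : e₀ ∈ φ.source)
    (m : V →L[ℂ] Cm d) (hm : ∀ ξ, m (fderiv ℂ (fun x => h (φ.symm x)) (φ e₀) ξ) = 0 → ξ = 0) :
    ∃ ψ : OpenPartialHomeomorph E (Cm d), Flat h m ψ ∧ e₀ ∈ ψ.source := by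
  set F : Cm d → Cm d := fun x => m (h (φ.symm x)) with hF
  set x₀ := φ e₀ with hx₀
  have hx₀t : x₀ ∈ φ.target := φ.map_source he
  have hFA : ∀ x ∈ φ.target, AnalyticAt ℂ F x := fun x hx => (m.analyticAt _).comp (hφ x hx)
  have hFd : ∀ x ∈ φ.target, ∀ ξ, fderiv ℂ F x ξ = m (fderiv ℂ (fun x => h (φ.symm x)) x ξ) := by
    intro x hx ξ
    have h1 : HasFDerivAt F (m.comp (fderiv ℂ (fun x => h (φ.symm x)) x)) x :=
      m.hasFDerivAt.comp x (hφ x hx).differentiableAt.hasFDerivAt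
    rw [h1.fderiv]
    rfl
  have hinj : Function.Injective (fderiv ℂ F x₀) := by
    rw [injective_iff_map_eq_zero]
    intro ξ hξ
    rw [hFd x₀ hx₀t] at hξ
    exact hm ξ hξ
  have hun : IsUnit (fderiv ℂ F x₀) := by
    let L : Cm d ≃ₗ[ℂ] Cm d := LinearEquiv.ofInjectiveEndo (fderiv ℂ F x₀ : Cm d →ₗ[ℂ] Cm d) hinj
    let M : Cm d ≃L[ℂ] Cm d := L.toContinuousLinearEquiv
    have h1 : (M : Cm d →L[ℂ] Cm d) = fderiv ℂ F x₀ := by
      ext1 x
      rfl
    refine ⟨(ContinuousLinearEquiv.unitsEquiv ℂ (Cm d)).symm M, ?_⟩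
    rw [← h1]
    rfl
  have hcont : ContinuousAt (fderiv ℂ F) x₀ := (hFA x₀ hx₀t).fderiv.continuousAt
  have hev : ∀ᶠ x in 𝓝 x₀, IsUnit (fderiv ℂ F x) := by
    obtain ⟨u, hu⟩ := hun
    have h1 : ∀ᶠ T in 𝓝 (fderiv ℂ F x₀), IsUnit T := by
      rw [← hu]
      exact Units.nhds u
    exact hcont.eventually h1
  obtain ⟨u, hu⟩ := hun
  let M : Cm d ≃L[ℂ] Cm d := ContinuousLinearEquiv.unitsEquiv ℂ (Cm d) u
  have hM : (M : Cm d →L[ℂ] Cm d) = fderiv ℂ F x₀ := by rw [← hu]; rfl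
  have hstrict : HasStrictFDerivAt F (M : Cm d →L[ℂ] Cm d) x₀ := by
    rw [hM]
    exact (hFA x₀ hx₀t).hasStrictFDerivAt
  let ψ₀ := hstrict.toOpenPartialHomeomorph F
  have hψ₀ : (ψ₀ : Cm d → Cm d) = F := hstrict.toOpenPartialHomeomorph_coe
  have hx₀ψ : x₀ ∈ ψ₀.source := hstrict.mem_toOpenPartialHomeomorph_source
  obtain ⟨U, hU, hUo, hxU⟩ := _root_.eventually_nhds_iff.1 hev
  let ψ₁ := ψ₀.restrOpen U hUo
  have hψ₁s : ψ₁.source = ψ₀.source ∩ U := ψ₀.restrOpen_source U hUo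
  refine ⟨φ.trans ψ₁, ⟨fun e he' => ?_, fun x hx => ?_⟩, ?_⟩
  · show ψ₀ (φ e) = m (h e)
    rw [hψ₀]
    show m (h (φ.symm (φ e))) = m (h e)
    rw [φ.left_inv ((φ.trans_source ψ₁ ▸ he').1)]
  · rw [OpenPartialHomeomorph.trans_target] at hx
    have hx1 : x ∈ ψ₁.target := hx.1
    have hx2 : ψ₁.symm x ∈ φ.target := hx.2
    have hx3 : ψ₁.symm x ∈ ψ₁.source := ψ₁.map_target hx1
    rw [hψ₁s] at hx3
    have hx4 : x ∈ ψ₀.target := by
      have := ψ₀.map_source hx3.1
      have h5 : ψ₀ (ψ₁.symm x) = x := ψ₁.right_inv hx1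
      rwa [h5] at this
    have hsy : AnalyticAt ℂ ψ₀.symm x := by
      obtain ⟨w, hw⟩ := hU _ hx3.2
      refine OpenPartialHomeomorph.analyticAt_symm ψ₀ (i := ContinuousLinearEquiv.unitsEquiv ℂ
        (Cm d) w) hx4 ?_ ?_
      · rw [hψ₀]
        exact hFA _ hx2
      · rw [hψ₀]
        show fderiv ℂ F (ψ₁.symm x) = _
        rw [← hw]
        rfl
    have h6 : AnalyticAt ℂ (fun x => h (φ.symm x)) (ψ₀.symm x) := hφ _ hx2
    exact h6.comp hsy
  · rw [OpenPartialHomeomorph.trans_source]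
    refine ⟨he, ?_⟩
    show φ e₀ ∈ ψ₁.source
    rw [hψ₁s]
    exact ⟨hx₀ψ, hxU⟩

variable {h : E → V} {m : V →L[ℂ] Cm d} {ψ : OpenPartialHomeomorph E (Cm d)}

namespace Flat

theorem right (H : Flat h m ψ) {x : Cm d} (hx : x ∈ ψ.target) : m (h (ψ.symm x)) = x := by
  rw [← H.eq _ (ψ.map_target hx), ψ.right_inv hx]

theorem left (H : Flat h m ψ) {e : E} (he : e ∈ ψ.source) : ψ.symm (m (h e)) = e := by
  rw [← H.eq e he, ψ.left_inv he]

/-- the derivative of `m ∘ h` in a flat chart -/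
theorem m_fderiv (H : Flat h m ψ) {x : Cm d} (hx : x ∈ ψ.target) (ξ : Cm d) :
    m (fderiv ℂ (fun x => h (ψ.symm x)) x ξ) = ξ := by
  have h1 : HasFDerivAt (fun x => m (h (ψ.symm x)))
      (m.comp (fderiv ℂ (fun x => h (ψ.symm x)) x)) x :=
    m.hasFDerivAt.comp x (H.an x hx).differentiableAt.hasFDerivAt
  have h2 : (fun x => m (h (ψ.symm x))) =ᶠ[𝓝 x] id := by
    filter_upwards [ψ.open_target.mem_nhds hx] with y hy
    exact H.right hy
  have h3 := (h1.congr_of_eventuallyEq h2.symm).unique (hasFDerivAt_id x)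
  exact congrArg (fun L : Cm d →L[ℂ] Cm d => L ξ) h3

theorem tan_iff (H : Flat h m ψ) {e : E} (he : e ∈ ψ.source) {v : V} :
    Tan h e v ↔ fderiv ℂ (fun x => h (ψ.symm x)) (ψ e) (m v) = v := by
  have ht : ψ e ∈ ψ.target := ψ.map_source he
  constructor
  · rintro ⟨γ, hγ, hγ0, hd⟩
    have h1 : HasDerivAt (fun t => m (h (γ t))) (m v) 0 := m.hasFDerivAt.comp_hasDerivAt 0 hd
    have h2 : (fun t => h (γ t)) =ᶠ[𝓝 0] fun t => h (ψ.symm (m (h (γ t)))) := by
      have h3 : ∀ᶠ t in 𝓝 0, γ t ∈ ψ.source := by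
        have := hγ.eventually (ψ.open_source.mem_nhds (by rw [hγ0]; exact he))
        exact this
      filter_upwards [h3] with t ht'
      rw [H.left ht']
    have h4 : HasFDerivAt (fun x => h (ψ.symm x)) (fderiv ℂ (fun x => h (ψ.symm x)) (ψ e))
        (m (h (γ 0))) := by
      rw [hγ0, ← H.eq e he]
      exact (H.an _ ht).differentiableAt.hasFDerivAt
    have h5 := h4.comp_hasDerivAt (0 : ℂ) h1
    exact (h5.congr_of_eventuallyEq h2).unique hd
  · intro hv
    refine ⟨fun t => ψ.symm (ψ e + t • m v), ?_, by simp [he], ?_⟩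
    · have h1 : ContinuousAt ψ.symm (ψ e + (0 : ℂ) • m v) := by
        rw [zero_smul, add_zero]
        exact ψ.continuousAt_symm ht
      exact ContinuousAt.comp (g := ψ.symm) (f := fun t : ℂ => ψ e + t • m v) h1 (by fun_prop)
    · have h1 : HasDerivAt (fun t : ℂ => ψ e + t • m v) (m v) 0 := by
        simpa using ((hasDerivAt_id (0 : ℂ)).smul_const (m v)).const_add (ψ e)
      have h2 : HasFDerivAt (fun x => h (ψ.symm x)) (fderiv ℂ (fun x => h (ψ.symm x)) (ψ e))
          (ψ e + (0 : ℂ) • m v) := by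
        rw [zero_smul, add_zero]
        exact (H.an _ ht).differentiableAt.hasFDerivAt
      have h3 := h2.comp_hasDerivAt (0 : ℂ) h1
      rw [hv] at h3
      exact h3

theorem tan_range (H : Flat h m ψ) {e : E} (he : e ∈ ψ.source) (ξ : Cm d) :
    Tan h e (fderiv ℂ (fun x => h (ψ.symm x)) (ψ e) ξ) := by
  rw [H.tan_iff he, H.m_fderiv (ψ.map_source he)]

theorem injOn (H : Flat h m ψ) : InjOn h ψ.source := by
  intro e he e' he' hee
  apply ψ.injOn he he'
  rw [H.eq e he, H.eq e' he', hee]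

theorem contAt (H : Flat h m ψ) {e : E} (he : e ∈ ψ.source) : ContinuousAt h e := by
  have h1 : ContinuousAt (fun x => h (ψ.symm x)) (ψ e) := (H.an _ (ψ.map_source he)).continuousAt
  have h2 : ContinuousAt (fun e => h (ψ.symm (ψ e))) e :=
    ContinuousAt.comp (g := fun x => h (ψ.symm x)) h1 (ψ.continuousAt he)
  refine h2.congr ?_
  filter_upwards [ψ.open_source.mem_nhds he] with e' he'
  rw [ψ.left_inv he']

/-- another flat chart, with the linear map `m'` -/
theorem change (H : Flat h m ψ) {e : E} (he : e ∈ ψ.source) (m' : V →L[ℂ] Cm d)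
    (hm' : ∀ v, Tan h e v → m' v = 0 → v = 0) :
    ∃ ψ' : OpenPartialHomeomorph E (Cm d), Flat h m' ψ' ∧ e ∈ ψ'.source := by
  refine flat_of ψ H.an he m' fun ξ hξ => ?_
  have h1 := hm' _ (H.tan_range he ξ) hξ
  have h2 := H.m_fderiv (ψ.map_source he) ξ
  rw [h1, map_zero] at h2
  exact h2.symm

end Flat

theorem IsImm.locallyInjective (hI : IsImm d h) : IsLocallyInjective h := by
  intro e
  obtain ⟨m, ψ, H, he⟩ := hI e
  exact ⟨ψ.source, ψ.open_source, he, H.injOn⟩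

theorem IsImm.continuous (hI : IsImm d h) : Continuous h := by
  rw [continuous_iff_continuousAt]
  intro e
  obtain ⟨m, ψ, H, he⟩ := hI e
  exact H.contAt he

/-- The vectors which are tangent to `h` everywhere. -/
def bs (hI : IsImm d h) : Submodule ℂ V where
  carrier := {v | ∀ e, Tan h e v}
  zero_mem' := fun e => by
    obtain ⟨m, ψ, H, he⟩ := hI e
    rw [H.tan_iff he]
    simp
  add_mem' := fun {a b} ha hb e => by
    obtain ⟨m, ψ, H, he⟩ := hI e
    have h1 := (H.tan_iff he).1 (ha e)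
    have h2 := (H.tan_iff he).1 (hb e)
    rw [H.tan_iff he, map_add, map_add, h1, h2]
  smul_mem' := fun c a ha e => by
    obtain ⟨m, ψ, H, he⟩ := hI e
    have h1 := (H.tan_iff he).1 (ha e)
    rw [H.tan_iff he, map_smul, map_smul, h1]

theorem mem_bs (hI : IsImm d h) {v : V} : v ∈ bs hI ↔ ∀ e, Tan h e v := Iff.rfl

/-- **Small translations lift** in a flat chart. -/
theorem Flat.trans (H : Flat h m ψ) {v : V} (hv : ∀ e, Tan h e v) {x : Cm d} {r : ℝ}
    (hr : ball x r ⊆ ψ.target) (hvr : ‖m v‖ < r) : h (ψ.symm (x + m v)) = h (ψ.symm x) + v := by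
  have hmem : ∀ t ∈ Icc (0 : ℝ) 1, x + t • m v ∈ ball x r := by
    intro t ht
    rw [mem_ball, dist_eq_norm, add_sub_cancel_left, norm_smul, Real.norm_of_nonneg ht.1]
    exact (mul_le_of_le_one_left (norm_nonneg _) ht.2).trans_lt hvr
  have hd : ∀ t ∈ Icc (0 : ℝ) 1, HasDerivWithinAt (fun t : ℝ => h (ψ.symm (x + t • m v)) - t • v)
      0 (Icc 0 1) t := by
    intro t ht
    have hxt := hr (hmem t ht)
    have h1 : HasFDerivAt (fun x => h (ψ.symm x)) (fderiv ℂ (fun x => h (ψ.symm x))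
        (x + t • m v)) (x + t • m v) := (H.an _ hxt).differentiableAt.hasFDerivAt
    have h2 : HasDerivAt (fun t : ℝ => x + t • m v) (m v) t := by
      simpa using ((hasDerivAt_id t).smul_const (m v)).const_add x
    have h3 := (h1.restrictScalars ℝ).comp_hasDerivAt t h2
    have h4 : (fderiv ℂ (fun x => h (ψ.symm x)) (x + t • m v)).restrictScalars ℝ (m v) = v := by
      have h5 := (H.tan_iff (ψ.map_target hxt)).1 (hv _)
      rw [ψ.right_inv hxt] at h5
      exact h5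
    rw [h4] at h3
    have h6 : HasDerivAt (fun t : ℝ => t • v) v t := by
      simpa using (hasDerivAt_id t).smul_const v
    have h7 := h3.sub h6
    rw [sub_self] at h7
    exact h7.hasDerivWithinAt
  have h1 := (convex_Icc (0 : ℝ) 1).is_const_of_fderivWithin_eq_zero (𝕜 := ℝ)
    (f := fun t : ℝ => h (ψ.symm (x + t • m v)) - t • v)
    (fun t ht => (hd t ht).differentiableWithinAt) (fun t ht => by
      rcases eq_or_ne (0 : ℝ) 1 with h0 | h0
      · norm_num at h0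
      · have hu : UniqueDiffWithinAt ℝ (Icc (0 : ℝ) 1) t := uniqueDiffOn_Icc zero_lt_one t ht
        have := (hd t ht).hasFDerivWithinAt.fderivWithin hu
        rw [this]
        ext
        simp) ⟨le_rfl, zero_le_one⟩ ⟨zero_le_one, le_rfl⟩
  simp only [zero_smul, add_zero, sub_zero, one_smul] at h1
  rw [h1]
  abel

end Vale.Agent.P281.H349.O
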