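import Vale.Agent.P281.H349.O.Orb

/-!
# P281, project T-UD (helper349, block R0b): derivatives in the flat charts
-/

open Set Filter Metric Topology

set_option linter.all false

noncomputable section

namespace Vale.Agent.P281.H349.O

variable {d : ℕ} {E V : Type*} [TopologicalSpace E] [NormedAddCommGroup V]
  [NormedSpace ℂ V] {h : E → V} {m : V →L[ℂ] Cm d}
  {W : Type*} [NormedAddCommGroup W] [NormedSpace ℂ W]

open Classical in
/-- the derivative of `G` in the flat charts with the linear map `m` -/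
def dF (h : E → V) (m : V →L[ℂ] Cm d) (G : E → W) (e : E) : Cm d →L[ℂ] W :=
  if H : ∃ ψ : OpenPartialHomeomorph E (Cm d), Flat h m ψ ∧ e ∈ ψ.source then
    fderiv ℂ (fun x => G (H.choose.symm x)) (m (h e)) else 0

variable {ψ ψ' : OpenPartialHomeomorph E (Cm d)}

theorem Flat.symm_eq (H : Flat h m ψ) (H' : Flat h m ψ') {e : E} (he : e ∈ ψ.source)
    (he' : e ∈ ψ'.source) : ∀ᶠ x in 𝓝 (m (h e)), ψ.symm x = ψ'.symm x := by
  have h1 : ψ e = m (h e) := H.eq e he
  have ht : m (h e) ∈ ψ.target := by rw [← h1]; exact ψ.map_source he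
  have h2 : ∀ᶠ x in 𝓝 (m (h e)), ψ.symm x ∈ ψ'.source := by
    have h3 := ψ.continuousAt_symm ht
    rw [ContinuousAt, ← h1, ψ.left_inv he] at h3
    rw [← h1]
    exact h3 (ψ'.open_source.mem_nhds he')
  filter_upwards [h2, ψ.open_target.mem_nhds ht] with x hx hxt
  have h4 : ψ' (ψ.symm x) = x := by rw [H'.eq _ hx, H.right hxt]
  have h5 := ψ'.left_inv hx
  rw [h4] at h5
  exact h5.symm

theorem Flat.dF_eq (H : Flat h m ψ) {e : E} (he : e ∈ ψ.source) (G : E → W) :
    dF h m G e = fderiv ℂ (fun x => G (ψ.symm x)) (m (h e)) := by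
  have hex : ∃ ψ : OpenPartialHomeomorph E (Cm d), Flat h m ψ ∧ e ∈ ψ.source := ⟨ψ, H, he⟩
  unfold dF
  rw [dif_pos hex]
  refine Filter.EventuallyEq.fderiv_eq ?_
  filter_upwards [hex.choose_spec.1.symm_eq H hex.choose_spec.2 he] with x hx
  rw [hx]

theorem Flat.dF_symm (H : Flat h m ψ) {x : Cm d} (hx : x ∈ ψ.target) (G : E → W) :
    dF h m G (ψ.symm x) = fderiv ℂ (fun x => G (ψ.symm x)) x := by
  rw [H.dF_eq (ψ.map_target hx), H.right hx]

/-- `G` is holomorphic in the flat charts -/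
def FH (h : E → V) (m : V →L[ℂ] Cm d) (G : E → W) : Prop :=
  ∀ ψ : OpenPartialHomeomorph E (Cm d), Flat h m ψ → ∀ x ∈ ψ.target,
    AnalyticAt ℂ (fun x => G (ψ.symm x)) x

theorem FH.self : FH h m h := fun ψ H => H.an

theorem FH.dF [CompleteSpace W] {G : E → W} (hG : FH h m G) : FH h m (dF h m G) := by
  intro ψ H x hx
  refine (hG ψ H x hx).fderiv.congr ?_
  filter_upwards [ψ.open_target.mem_nhds hx] with y hy
  exact (H.dF_symm hy G).symm

/-- the derivative in the direction `w` -/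
def Dw (h : E → V) (m : V →L[ℂ] Cm d) (w : Cm d) (G : E → W) (e : E) : W := O.dF h m G e w

theorem FH.Dw [CompleteSpace W] {G : E → W} (hG : FH h m G) (w : Cm d) : FH h m (Dw h m w G) := by
  intro ψ H x hx
  have h1 := hG.dF ψ H x hx
  exact ((ContinuousLinearMap.apply ℂ W w).analyticAt _).comp h1

theorem Flat.Dw_symm (H : Flat h m ψ) {x : Cm d} (hx : x ∈ ψ.target) (G : E → W) (w : Cm d) :
    Dw h m w G (ψ.symm x) = fderiv ℂ (fun x => G (ψ.symm x)) x w := by
  unfold Dw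
  rw [H.dF_symm hx]

/-- flat derivatives commute -/
theorem Dw_comm [CompleteSpace W] {G : E → W} (hG : FH h m G) (H : Flat h m ψ) {x : Cm d}
    (hx : x ∈ ψ.target) (u w : Cm d) :
    Dw h m u (Dw h m w G) (ψ.symm x) = Dw h m w (Dw h m u G) (ψ.symm x) := by
  have key : ∀ u w : Cm d, Dw h m u (Dw h m w G) (ψ.symm x) =
      fderiv ℂ (fderiv ℂ (fun x => G (ψ.symm x))) x u w := by
    intro u w
    rw [H.Dw_symm hx]
    have h1 : (fun x => Dw h m w G (ψ.symm x)) =ᶠ[𝓝 x] fun x =>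
        fderiv ℂ (fun x => G (ψ.symm x)) x w := by
      filter_upwards [ψ.open_target.mem_nhds hx] with y hy
      exact H.Dw_symm hy G w
    rw [h1.fderiv_eq]
    have h2 : HasFDerivAt (fun x => fderiv ℂ (fun x => G (ψ.symm x)) x w)
        ((ContinuousLinearMap.apply ℂ W w).comp
          (fderiv ℂ (fderiv ℂ (fun x => G (ψ.symm x))) x)) x :=
      (ContinuousLinearMap.apply ℂ W w).hasFDerivAt.comp x
        (hG ψ H x hx).fderiv.differentiableAt.hasFDerivAt
    rw [h2.fderiv]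
    rfl
  rw [key, key]
  have h3 : ContDiffAt ℂ 2 (fun x => G (ψ.symm x)) x := (hG ψ H x hx).contDiffAt
  exact (h3.isSymmSndFDerivAt (by simp)).eq u w

section group
variable {Γ : Type*} [Group Γ] [MulAction Γ E] [ContinuousConstSMul Γ E] {c : Γ → V}

/-- the translates of a flat chart -/
theorem Flat.smul (H : Flat h m ψ) (hc : ∀ (γ : Γ) e, h (γ • e) = h e + c γ) (γ : Γ) :
    ∃ ψ' : OpenPartialHomeomorph E (Cm d), Flat h m ψ' ∧
      (∀ e, γ • e ∈ ψ'.source ↔ e ∈ ψ.source) ∧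
      (∀ x, x + m (c γ) ∈ ψ'.target ↔ x ∈ ψ.target) ∧
      ∀ x, ψ'.symm (x + m (c γ)) = γ • ψ.symm x := by
  have hcinv : ∀ e, h (γ⁻¹ • e) = h e - c γ := by
    intro e
    have h1 := hc γ (γ⁻¹ • e)
    rw [smul_inv_smul] at h1
    rw [h1]
    abel
  let ψ' := ((Homeomorph.smul γ⁻¹).toOpenPartialHomeomorph.trans ψ).trans
    (Homeomorph.addRight (m (c γ))).toOpenPartialHomeomorph
  have hs : ∀ e, e ∈ ψ'.source ↔ γ⁻¹ • e ∈ ψ.source := by
    intro e
    simp [ψ', OpenPartialHomeomorph.trans_source]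
  have hsa : ∀ x, (Homeomorph.addRight (m (c γ))).symm x = x - m (c γ) := fun x =>
    (sub_eq_add_neg x _).symm
  have ht : ∀ x, x ∈ ψ'.target ↔ x - m (c γ) ∈ ψ.target := by
    intro x
    simp [ψ', OpenPartialHomeomorph.trans_target, hsa]
  have hsy : ∀ x, ψ'.symm x = γ • ψ.symm (x - m (c γ)) := by
    intro x
    simp [ψ', hsa]
  have hap : ∀ e, ψ' e = ψ (γ⁻¹ • e) + m (c γ) := by
    intro e
    simp [ψ']
  refine ⟨ψ', ⟨fun e he => ?_, fun x hx => ?_⟩, fun e => ?_, fun x => ?_, fun x => ?_⟩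
  · rw [hap, H.eq _ ((hs e).1 he), hcinv, map_sub]
    abel
  · have h1 : (fun x => h (ψ'.symm x)) = fun x => h (ψ.symm (x - m (c γ))) + c γ := by
      funext y
      rw [hsy, hc]
    rw [h1]
    have h2 : AnalyticAt ℂ (fun x => h (ψ.symm x)) (x - m (c γ)) := H.an _ ((ht x).1 hx)
    have h3 : AnalyticAt ℂ (fun x : Cm d => x - m (c γ)) x := by fun_prop
    exact (AnalyticAt.comp (g := fun x => h (ψ.symm x)) (f := fun x : Cm d => x - m (c γ))
      h2 h3).add analyticAt_const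
  · rw [hs, inv_smul_smul]
  · rw [ht, add_sub_cancel_right]
  · rw [hsy, add_sub_cancel_right]

/-- flat derivatives of invariant functions are invariant -/
theorem dF_smul (hc : ∀ (γ : Γ) e, h (γ • e) = h e + c γ) {G : E → W} {C : W} {γ : Γ}
    (hG : ∀ e, G (γ • e) = G e + C) (e : E) : dF h m G (γ • e) = dF h m G e := by
  by_cases hex : ∃ ψ : OpenPartialHomeomorph E (Cm d), Flat h m ψ ∧ e ∈ ψ.source
  · obtain ⟨ψ, H, he⟩ := hex
    obtain ⟨ψ', H', h1, h2, h3⟩ := H.smul hc γ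
    rw [H.dF_eq he, H'.dF_eq ((h1 e).2 he), hc, map_add]
    have h4 : (fun x => G (ψ'.symm x)) = fun x => (fun y => G (ψ.symm y) + C) (x - m (c γ)) := by
      funext x
      have h5 := h3 (x - m (c γ))
      rw [sub_add_cancel] at h5
      rw [h5, hG]
    rw [h4]
    have h6 := fderiv_comp_sub (𝕜 := ℂ) (f := fun y => G (ψ.symm y) + C) (m (c γ))
      (x := m (h e) + m (c γ))
    rw [add_sub_cancel_right] at h6
    rw [h6, fderiv_add_const]
  · have hex' : ¬ ∃ ψ : OpenPartialHomeomorph E (Cm d), Flat h m ψ ∧ γ • e ∈ ψ.source := by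
      rintro ⟨ψ, H, he⟩
      obtain ⟨ψ', H', h1, h2, h3⟩ := H.smul hc γ⁻¹
      refine hex ⟨ψ', H', ?_⟩
      have h4 := (h1 (γ • e)).2 he
      rwa [inv_smul_smul] at h4
    unfold dF
    rw [dif_neg hex, dif_neg hex']

theorem Dw_smul (hc : ∀ (γ : Γ) e, h (γ • e) = h e + c γ) {G : E → W}
    (hG : ∀ (γ : Γ) e, G (γ • e) = G e) (w : Cm d) (γ : Γ) (e : E) :
    Dw h m w G (γ • e) = Dw h m w G e := by
  unfold Dw
  rw [dF_smul hc (G := G) (C := 0) (fun e => by rw [hG, add_zero])]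

end group

end Vale.Agent.P281.H349.O
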