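import Vale.Agent.P281.H349.O.Flat

/-!
# P281, project T-UD (helper349, block R0a): the action of the everywhere tangent vectors
-/

open Set Filter Metric Topology
open scoped Pointwise

set_option linter.all false

noncomputable section

namespace Vale.Agent.P281.H349.O

variable {d : ℕ} {E V : Type*} [TopologicalSpace E] [T2Space E] [NormedAddCommGroup V]
  [NormedSpace ℂ V] {h : E → V}

/-- local lifts of the translations by vectors of norm `< ε` near `e₀` -/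
def LocA (hI : IsImm d h) (ε : ℝ) (e₀ : E) : Prop :=
  ∃ U ∈ 𝓝 e₀, ∃ A : V → E → E, (∀ e ∈ U, A 0 e = e) ∧
    (∀ e ∈ U, ∀ v ∈ bs hI, ‖v‖ < ε → h (A v e) = h e + v) ∧
    ContinuousOn (fun p : V × E => A p.1 p.2) (ball 0 ε ×ˢ U)

theorem LocA.mono {hI : IsImm d h} {ε ε' : ℝ} {e₀ : E} (H : LocA hI ε e₀) (hε : ε' ≤ ε) :
    LocA hI ε' e₀ := by
  obtain ⟨U, hU, A, h1, h2, h3⟩ := H
  exact ⟨U, hU, A, h1, fun e he v hv hvn => h2 e he v hv (hvn.trans_le hε),
    h3.mono (prod_mono (ball_subset_ball hε) subset_rfl)⟩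

theorem exists_locA (hI : IsImm d h) (e₀ : E) : ∃ ε > 0, ∀ᶠ e in 𝓝 e₀, LocA hI ε e := by
  obtain ⟨m, ψ, H, he⟩ := hI e₀
  obtain ⟨r, hr, hball⟩ := Metric.isOpen_iff.1 ψ.open_target (ψ e₀) (ψ.map_source he)
  set ε := (r / 2) / (‖m‖ + 1) with hε
  have hm0 : 0 < ‖m‖ + 1 := by positivity
  have hε0 : 0 < ε := by positivity
  have hmv : ∀ v : V, ‖v‖ < ε → ‖m v‖ < r / 2 := by
    intro v hv
    have h1 : ‖m v‖ ≤ (‖m‖ + 1) * ‖v‖ := (m.le_opNorm v).trans (by
      have := norm_nonneg v; nlinarith)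
    have h2 : (‖m‖ + 1) * ‖v‖ < (‖m‖ + 1) * ε := mul_lt_mul_of_pos_left hv hm0
    have h3 : (‖m‖ + 1) * ε = r / 2 := by rw [hε]; field_simp
    linarith
  set U : Set E := ψ.source ∩ ψ ⁻¹' ball (ψ e₀) (r / 2) with hU
  have hUo : IsOpen U := ψ.isOpen_inter_preimage isOpen_ball
  have heU : e₀ ∈ U := ⟨he, mem_ball_self (by positivity)⟩
  refine ⟨ε, hε0, ?_⟩
  filter_upwards [hUo.mem_nhds heU] with e₁ he₁
  have hmem : ∀ v : V, ‖v‖ < ε → ∀ e ∈ U, m (h e) + m v ∈ ball (ψ e₀) r := by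
    intro v hv e he'
    rw [← H.eq e he'.1, mem_ball]
    have h1 : dist (ψ e) (ψ e₀) < r / 2 := he'.2
    have h2 : dist (ψ e + m v) (ψ e) < r / 2 := by
      rw [dist_eq_norm, add_sub_cancel_left]
      exact hmv v hv
    linarith [dist_triangle (ψ e + m v) (ψ e) (ψ e₀)]
  refine ⟨U, hUo.mem_nhds he₁, fun v e => ψ.symm (m (h e) + m v), fun e he' => ?_,
    fun e he' v hv hvn => ?_, ?_⟩
  · show ψ.symm (m (h e) + m 0) = e
    rw [map_zero, add_zero, H.left he'.1]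
  · have hsub : ball (m (h e)) (r / 2) ⊆ ψ.target := by
      refine Subset.trans ?_ hball
      intro y hy
      rw [mem_ball] at hy ⊢
      have h1 : dist (ψ e) (ψ e₀) < r / 2 := he'.2
      rw [H.eq e he'.1] at h1
      linarith [dist_triangle y (m (h e)) (ψ e₀)]
    have h1 := H.trans (x := m (h e)) hv hsub (hmv v hvn)
    show h (ψ.symm (m (h e) + m v)) = h e + v
    rw [h1, H.left he'.1]
  · have h1 : ContinuousOn (fun p : V × E => m (h p.2) + m p.1) (ball 0 ε ×ˢ U) := by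
      refine ContinuousOn.add ?_ (m.continuous.comp continuous_fst).continuousOn
      exact (m.continuous.comp (hI.continuous.comp continuous_snd)).continuousOn
    exact ψ.continuousOn_symm.comp h1 fun p hp =>
      hball (hmem p.1 (mem_ball_zero_iff.1 hp.1) p.2 hp.2)

/-- uniqueness of the local lifts -/
theorem LocA.unique {hI : IsImm d h} {ε : ℝ} {U U' : Set E} {A A' : V → E → E}
    (h1 : ∀ e ∈ U, A 0 e = e) (h2 : ∀ e ∈ U, ∀ v ∈ bs hI, ‖v‖ < ε → h (A v e) = h e + v)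
    (h3 : ContinuousOn (fun p : V × E => A p.1 p.2) (ball 0 ε ×ˢ U))
    (h1' : ∀ e ∈ U', A' 0 e = e) (h2' : ∀ e ∈ U', ∀ v ∈ bs hI, ‖v‖ < ε → h (A' v e) = h e + v)
    (h3' : ContinuousOn (fun p : V × E => A' p.1 p.2) (ball 0 ε ×ˢ U')) {e : E} (he : e ∈ U)
    (he' : e ∈ U') {v : V} (hv : v ∈ bs hI) (hvn : ‖v‖ < ε) : A v e = A' v e := by
  have hn : ∀ t ∈ Icc (0 : ℝ) 1, ‖t • v‖ < ε := by
    intro t ht
    rw [norm_smul, Real.norm_of_nonneg ht.1]
    exact (mul_le_of_le_one_left (norm_nonneg v) ht.2).trans_lt hvn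
  have hb : ∀ t : ℝ, t • v ∈ bs hI := fun t => by
    have : t • v = (t : ℂ) • v := (Complex.coe_smul t v).symm
    rw [this]
    exact (bs hI).smul_mem _ hv
  have key := lift_unique hI.locallyInjective (isPreconnected_Icc (a := (0 : ℝ)) (b := 1))
    (g₁ := fun t : ℝ => A (t • v) e) (g₂ := fun t : ℝ => A' (t • v) e)
    (h3.comp (f := fun t : ℝ => ((t • v, e) : V × E)) (by fun_prop) fun t ht =>
      ⟨mem_ball_zero_iff.2 (hn t ht), he⟩)
    (h3'.comp (f := fun t : ℝ => ((t • v, e) : V × E)) (by fun_prop) fun t ht =>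
      ⟨mem_ball_zero_iff.2 (hn t ht), he'⟩)
    (fun t ht => by rw [h2 e he _ (hb t) (hn t ht), h2' e he' _ (hb t) (hn t ht)])
    (a := 0) ⟨le_rfl, zero_le_one⟩ (by rw [zero_smul, h1 e he, h1' e he']) 1
    ⟨zero_le_one, le_rfl⟩
  simpa using key

variable {Γ : Type*} [Group Γ] [MulAction Γ E] [ContinuousConstSMul Γ E]

/-- `h` is additive with periods `c`, and `Γ` is cocompact. -/
structure Cpt (h : E → V) (c : Γ → V) : Prop where
  add : ∀ (γ : Γ) e, h (γ • e) = h e + c γ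
  cpt : ∃ C : Set E, IsCompact C ∧ ∀ e, ∃ γ : Γ, ∃ x ∈ C, γ • x = e

theorem LocA.smul {hI : IsImm d h} {c : Γ → V} (hc : ∀ (γ : Γ) e, h (γ • e) = h e + c γ)
    {ε : ℝ} {e₀ : E} (H : LocA hI ε e₀) (γ : Γ) : LocA hI ε (γ • e₀) := by
  obtain ⟨U, hU, A, h1, h2, h3⟩ := H
  refine ⟨γ • U, smul_mem_nhds_smul γ hU, fun v e => γ • A v (γ⁻¹ • e), ?_, ?_, ?_⟩
  · rintro _ ⟨e, he, rfl⟩
    show γ • A 0 (γ⁻¹ • γ • e) = γ • e
    rw [inv_smul_smul, h1 e he]
  · rintro _ ⟨e, he, rfl⟩ v hv hvn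
    show h (γ • A v (γ⁻¹ • γ • e)) = h (γ • e) + v
    rw [inv_smul_smul, hc, hc, h2 e he v hv hvn]
    abel
  · refine (continuous_const_smul γ).comp_continuousOn ?_
    refine h3.comp (f := fun p : V × E => ((p.1, γ⁻¹ • p.2) : V × E)) ?_ ?_
    · exact (continuous_fst.prodMk ((continuous_const_smul γ⁻¹).comp continuous_snd)).continuousOn
    · rintro ⟨v, e⟩ ⟨hv, x, hx, hxe⟩
      refine ⟨hv, ?_⟩
      show γ⁻¹ • e ∈ U
      have : γ • x = e := hxe
      rw [← this, inv_smul_smul]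
      exact hx

/-- **the uniform radius** -/
theorem exists_radius (hI : IsImm d h) {c : Γ → V} (hC : Cpt h c) :
    ∃ ε > 0, ∀ e, LocA hI ε e := by
  obtain ⟨C, hCc, hCe⟩ := hC.cpt
  have h1 : ∃ ε > 0, ∀ e ∈ C, LocA hI ε e := by
    refine hCc.induction_on (p := fun s => ∃ ε > 0, ∀ e ∈ s, LocA hI ε e) ?_ ?_ ?_ ?_
    · exact ⟨1, one_pos, fun e he => absurd he (notMem_empty e)⟩
    · rintro s t hst ⟨ε, hε, h2⟩
      exact ⟨ε, hε, fun e he => h2 e (hst he)⟩
    · rintro s t ⟨ε, hε, h2⟩ ⟨ε', hε', h3⟩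
      refine ⟨min ε ε', lt_min hε hε', ?_⟩
      rintro e (he | he)
      · exact (h2 e he).mono (min_le_left _ _)
      · exact (h3 e he).mono (min_le_right _ _)
    · intro e he
      obtain ⟨ε, hε, h2⟩ := exists_locA hI e
      exact ⟨_, mem_nhdsWithin_of_mem_nhds h2, ε, hε, fun e' he' => he'⟩
  obtain ⟨ε, hε, h2⟩ := h1
  refine ⟨ε, hε, fun e => ?_⟩
  obtain ⟨γ, x, hx, rfl⟩ := hCe e
  exact (h2 x hx).smul hC.add γ

/-- the inclusion of the everywhere tangent vectors -/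
def incl (hI : IsImm d h) : bs hI →ₗ[ℝ] V := ((bs hI).subtype).restrictScalars ℝ

theorem incl_apply (hI : IsImm d h) (v : bs hI) : incl hI v = (v : V) := rfl

/-- **Block R0a**: the action of the everywhere tangent vectors. -/
theorem exists_action (hI : IsImm d h) {c : Γ → V} (hC : Cpt h c) :
    ∃ act : bs hI → E → E, Continuous (fun p : bs hI × E => act p.1 p.2) ∧
      (∀ e, act 0 e = e) ∧ (∀ v e, h (act v e) = h e + v) ∧
      (∀ v w e, act (v + w) e = act v (act w e)) ∧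
      ∀ v (γ : Γ) e, act v (γ • e) = γ • act v e := by
  obtain ⟨ε, hε, hloc⟩ := exists_radius hI hC
  choose U hU A h1 h2 h3 using hloc
  let a : bs hI → E → E := fun v e => A e v e
  have hself : ∀ e, e ∈ U e := fun e => mem_of_mem_nhds (hU e)
  have ha : PAct h (incl hI) ε a := by
    refine ⟨fun e => h1 e e (hself e), fun v hv e => h2 e e (hself e) v v.2 hv, ?_⟩
    rintro ⟨v₀, e₀⟩ ⟨hv₀, -⟩
    have hv₀' : ‖(v₀ : V)‖ < ε := mem_ball_zero_iff.1 hv₀
    refine ContinuousAt.continuousWithinAt ?_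
    have h4 : ContinuousAt (fun p : V × E => A e₀ p.1 p.2) ((v₀ : V), e₀) :=
      (h3 e₀).continuousAt (prod_mem_nhds (isOpen_ball.mem_nhds (mem_ball_zero_iff.2 hv₀')) (hU e₀))
    have h5 : ContinuousAt (fun p : bs hI × E => A e₀ (p.1 : V) p.2) (v₀, e₀) :=
      ContinuousAt.comp (g := fun p : V × E => A e₀ p.1 p.2)
        (f := fun p : bs hI × E => ((p.1 : V), p.2)) h4 (by fun_prop)
    refine h5.congr ?_
    have h6 : ∀ᶠ p : bs hI × E in 𝓝 (v₀, e₀), ‖(p.1 : V)‖ < ε ∧ p.2 ∈ U e₀ := by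
      refine Filter.Eventually.and ?_ ?_
      · have : Continuous fun p : bs hI × E => ‖(p.1 : V)‖ := by fun_prop
        exact this.continuousAt.eventually (gt_mem_nhds hv₀')
      · exact continuous_snd.continuousAt.eventually (hU e₀)
    filter_upwards [h6] with p hp
    exact LocA.unique (hI := hI) (h1 e₀) (h2 e₀) (h3 e₀) (h1 p.2) (h2 p.2) (h3 p.2) hp.2
      (hself p.2) p.1.2 hp.1
  obtain ⟨act, hc, h0, hl, hadd⟩ := exists_act hI.locallyInjective hε ha
  refine ⟨act, hc, h0, fun v e => by rw [hl, incl_apply], hadd, fun v γ e => ?_⟩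
  have key := lift_unique hI.locallyInjective (isPreconnected_univ (α := ℝ))
    (g₁ := fun t : ℝ => act (t • v) (γ • e)) (g₂ := fun t : ℝ => γ • act (t • v) e)
    (hc.comp (by fun_prop : Continuous fun t : ℝ => ((t • v, γ • e) : bs hI × E))).continuousOn
    ((continuous_const_smul γ).comp (hc.comp
      (by fun_prop : Continuous fun t : ℝ => ((t • v, e) : bs hI × E)))).continuousOn
    (fun t _ => by
      simp only [hl, hC.add]
      abel) (a := 0) (mem_univ _) (by simp only [zero_smul, h0]) 1 (mem_univ _)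
  simpa using key

end Vale.Agent.P281.H349.O
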