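import Vale.Agent.P281.H349.O.Loc

/-!
# P281, project T-UD (helper349, block R0c): compact orbits
-/

open Set Filter Metric Topology

set_option linter.all false

noncomputable section

namespace Vale.Agent.P281.H349.O

variable {d : ℕ} {E V : Type*} [TopologicalSpace E] [T2Space E] [NormedAddCommGroup V]
  [NormedSpace ℂ V] {h : E → V}

/-- connected sets with small images are small -/
theorem shrink (hI : IsImm d h) {e₁ : E} {N : Set E} (hN : N ∈ 𝓝 e₁) :
    ∃ δ > 0, ∀ P : Set E, IsPreconnected P → e₁ ∈ P → (∀ e ∈ P, ‖h e - h e₁‖ < δ) → P ⊆ N := by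
  obtain ⟨m, ψ, H, he⟩ := hI e₁
  have h1 : ψ.symm ⁻¹' N ∈ 𝓝 (ψ e₁) := by
    have := ψ.continuousAt_symm (ψ.map_source he)
    rw [ContinuousAt, ψ.left_inv he] at this
    exact this hN
  obtain ⟨r, hr, hball⟩ := Metric.mem_nhds_iff.1
    (inter_mem h1 (ψ.open_target.mem_nhds (ψ.map_source he)))
  set ρ := r / 2 with hρ
  have hρ0 : 0 < ρ := by positivity
  have hcb : closedBall (ψ e₁) ρ ⊆ ball (ψ e₁) r := closedBall_subset_ball (by linarith)
  set K : Set E := ψ.symm '' closedBall (ψ e₁) ρ with hK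
  set W : Set E := ψ.symm '' ball (ψ e₁) ρ with hW
  have hKc : IsCompact K := (isCompact_closedBall _ _).image_of_continuousOn
    (ψ.continuousOn_symm.mono fun x hx => (hball (hcb hx)).2)
  have hWo : IsOpen W := ψ.symm.isOpen_image_of_subset_source isOpen_ball
    fun x hx => (hball (hcb (ball_subset_closedBall hx))).2
  have hWN : W ⊆ N := by
    rintro _ ⟨x, hx, rfl⟩
    exact (hball (hcb (ball_subset_closedBall hx))).1
  refine ⟨ρ / (‖m‖ + 1), by positivity, fun P hP heP hPh => ?_⟩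
  have hm0 : 0 < ‖m‖ + 1 := by positivity
  have heW : e₁ ∈ W := ⟨ψ e₁, mem_ball_self hρ0, ψ.left_inv he⟩
  have hsub : P ⊆ W ∪ Kᶜ := by
    intro e heP'
    by_cases heK : e ∈ K
    · left
      obtain ⟨x, hx, rfl⟩ := heK
      refine ⟨x, ?_, rfl⟩
      have hxt : x ∈ ψ.target := (hball (hcb hx)).2
      have h2 : x - ψ e₁ = m (h (ψ.symm x) - h e₁) := by
        rw [map_sub, H.right hxt, H.eq e₁ he]
      rw [mem_ball, dist_eq_norm, h2]
      have h3 := hPh _ heP'
      have h4 : ‖m (h (ψ.symm x) - h e₁)‖ ≤ (‖m‖ + 1) * ‖h (ψ.symm x) - h e₁‖ :=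
        (m.le_opNorm _).trans (by
          have := norm_nonneg (h (ψ.symm x) - h e₁); nlinarith)
      have h5 : (‖m‖ + 1) * ‖h (ψ.symm x) - h e₁‖ < (‖m‖ + 1) * (ρ / (‖m‖ + 1)) :=
        mul_lt_mul_of_pos_left h3 hm0
      rw [mul_div_cancel₀ _ hm0.ne'] at h5
      linarith
    · right
      exact heK
  have hdisj : Disjoint W Kᶜ := by
    rw [disjoint_compl_right_iff_subset]
    exact image_mono ball_subset_closedBall
  rcases hP.subset_or_subset hWo hKc.isClosed.isOpen_compl hdisj hsub with h2 | h2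
  · exact h2.trans hWN
  · exact absurd (image_mono ball_subset_closedBall heW) (h2 heP)

/-- connected neighbourhoods with small images -/
theorem exists_conn (hI : IsImm d h) (e₁ : E) {δ : ℝ} (hδ : 0 < δ) :
    ∃ P ∈ 𝓝 e₁, IsPreconnected P ∧ ∀ e ∈ P, ‖h e - h e₁‖ < δ := by
  obtain ⟨m, ψ, H, he⟩ := hI e₁
  have h1 : ContinuousAt (fun x => h (ψ.symm x)) (ψ e₁) :=
    (H.an _ (ψ.map_source he)).continuousAt
  have h2 : ∀ᶠ x in 𝓝 (ψ e₁), ‖h (ψ.symm x) - h e₁‖ < δ := by
    have h3 := Metric.continuousAt_iff'.1 h1 δ hδ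
    filter_upwards [h3] with x hx
    rw [dist_eq_norm, ψ.left_inv he] at hx
    exact hx
  obtain ⟨r, hr, hball⟩ := Metric.mem_nhds_iff.1
    (inter_mem h2 (ψ.open_target.mem_nhds (ψ.map_source he)))
  refine ⟨ψ.symm '' ball (ψ e₁) r, ?_, ?_, ?_⟩
  · refine (ψ.symm.isOpen_image_of_subset_source isOpen_ball fun x hx => (hball hx).2).mem_nhds ?_
    exact ⟨ψ e₁, mem_ball_self hr, ψ.left_inv he⟩
  · exact (convex_ball _ _).isPreconnected.image _
      (ψ.continuousOn_symm.mono fun x hx => (hball hx).2)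
  · rintro _ ⟨x, hx, rfl⟩
    exact (hball hx).1

variable {Γ : Type*} [Group Γ] [MulAction Γ E] [ContinuousConstSMul Γ E]

/-- the action of the everywhere tangent vectors -/
structure IsAct (hI : IsImm d h) (c : Γ → V) (act : bs hI → E → E) : Prop where
  cont : Continuous (fun p : bs hI × E => act p.1 p.2)
  zero : ∀ e, act 0 e = e
  lift : ∀ v e, h (act v e) = h e + v
  add : ∀ v w e, act (v + w) e = act v (act w e)
  smul : ∀ v (γ : Γ) e, act v (γ • e) = γ • act v e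

variable {hI : IsImm d h} {c : Γ → V} {act : bs hI → E → E}

theorem IsAct.neg (ha : IsAct hI c act) (v : bs hI) (e : E) : act (-v) (act v e) = e := by
  rw [← ha.add, neg_add_cancel, ha.zero]

theorem IsAct.cont_e (ha : IsAct hI c act) (v : bs hI) : Continuous (act v) :=
  ha.cont.comp (continuous_const.prodMk continuous_id)

/-- the stabilizers act trivially -/
theorem IsAct.stab [PreconnectedSpace E] (ha : IsAct hI c act) (hC : Cpt h c) {v : bs hI}
    {γ : Γ} {e₁ : E} (h1 : act v e₁ = γ • e₁) : ∀ e, act v e = γ • e := by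
  have h2 : (v : V) = c γ := by
    have := congrArg h h1
    rw [ha.lift, hC.add] at this
    exact add_left_cancel this
  intro e
  exact lift_unique hI.locallyInjective isPreconnected_univ (ha.cont_e v).continuousOn
    (continuous_const_smul γ).continuousOn (fun e _ => by rw [ha.lift, hC.add, h2])
    (mem_univ e₁) h1 e (mem_univ e)

/-- **Block R0c**: the orbit of `e₁` is compact modulo `Γ`. -/
theorem IsAct.compact_orbit (ha : IsAct hI c act) (hC : Cpt h c) {Z : Set E} (hZ : IsClosed Z)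
    (hZΓ : ∀ (γ : Γ), ∀ e ∈ Z, γ • e ∈ Z) (hZa : ∀ v, ∀ e ∈ Z, act v e ∈ Z) {e₁ : E}
    (he₁ : e₁ ∈ Z) {N : Set E} (hN : N ∈ 𝓝 e₁) (hpl : ∀ e ∈ Z, e ∈ N → ∃ v, act v e₁ = e) :
    ∃ R : ℝ, ∀ v : bs hI, ∃ l : bs hI, (∃ γ : Γ, act l e₁ = γ • e₁) ∧ ‖v + l‖ ≤ R := by
  by_contra hcon
  push Not at hcon
  choose v hv using fun n : ℕ => hcon n
  obtain ⟨C, hCc, hCe⟩ := hC.cpt
  choose γ x hxC hx using fun n : ℕ => hCe (act (v n) e₁)
  obtain ⟨δ, hδ, hshr⟩ := shrink hI hN
  have hxe : ∀ n, x n = (γ n)⁻¹ • act (v n) e₁ := fun n => by rw [← hx n, inv_smul_smul]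
  have hxZ : ∀ n, x n ∈ Z := fun n => by
    rw [hxe]
    exact hZΓ _ _ (hZa _ _ he₁)
  obtain ⟨y, hyC, hy⟩ := hCc.exists_mapClusterPt (f := atTop) (u := x)
    (Filter.le_principal_iff.2 (by
      rw [Filter.mem_map]
      exact Filter.Eventually.of_forall hxC))
  have hyZ : y ∈ Z := by
    have h1 : y ∈ closure Z := by
      rw [mem_closure_iff_nhds]
      intro t ht
      obtain ⟨n, hn⟩ := (hy.frequently ht).exists
      exact ⟨x n, hn, hxZ n⟩
    rwa [hZ.closure_eq] at h1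
  obtain ⟨P, hP, hPc, hPh⟩ := exists_conn hI y (δ := min (δ / 2) (1 / 2)) (by positivity)
  have key : ∀ n, x n ∈ P → ∃ w : bs hI, act (v n + w) e₁ = γ n • y ∧ ‖w‖ ≤ 1 := by
    intro n hn
    have hyP : y ∈ P := mem_of_mem_nhds hP
    set P' : Set E := (fun e => act (-(v n)) (γ n • e)) '' P with hP'
    have hP'c : IsPreconnected P' := hPc.image _
      ((ha.cont_e _).comp (continuous_const_smul _)).continuousOn
    have he1 : act (-(v n)) (γ n • x n) = e₁ := by rw [hx n, ha.neg]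
    have hh : ∀ e, h (act (-(v n)) (γ n • e)) - h e₁ = h e - h (x n) := by
      intro e
      have h2 : h e₁ = h (act (-(v n)) (γ n • x n)) := by rw [he1]
      rw [h2, ha.lift, ha.lift, hC.add, hC.add]
      abel
    have hsub : P' ⊆ N := by
      refine hshr P' hP'c ⟨x n, hn, he1⟩ ?_
      rintro _ ⟨e, he, rfl⟩
      rw [hh]
      have h3 := hPh e he
      have h4 := hPh (x n) hn
      have h5 : h e - h (x n) = (h e - h y) - (h (x n) - h y) := by abel
      rw [h5]
      calc ‖(h e - h y) - (h (x n) - h y)‖ ≤ ‖h e - h y‖ + ‖h (x n) - h y‖ := norm_sub_le _ _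
        _ < δ / 2 + δ / 2 := add_lt_add (h3.trans_le (min_le_left _ _))
            (h4.trans_le (min_le_left _ _))
        _ = δ := by ring
    obtain ⟨w, hw⟩ := hpl (act (-(v n)) (γ n • y)) (hZa _ _ (hZΓ _ _ hyZ)) (hsub ⟨y, hyP, rfl⟩)
    refine ⟨w, ?_, ?_⟩
    · rw [ha.add, hw, ← ha.add, add_neg_cancel, ha.zero]
    · have h6 : (w : V) = h y - h (x n) := by
        rw [← hh y, ← hw, ha.lift]
        abel
      have h7 : ‖w‖ = ‖(w : V)‖ := rfl
      rw [h7, h6, norm_sub_rev]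
      exact ((hPh (x n) hn).trans_le (min_le_right _ _)).le.trans (by norm_num)
  have hfr : ∃ᶠ n in atTop, x n ∈ P := hy.frequently hP
  obtain ⟨k, hk⟩ := hfr.exists
  obtain ⟨wk, hwk, hwkn⟩ := key k hk
  obtain ⟨M, hM⟩ := exists_nat_gt (‖v k‖ + 2)
  obtain ⟨n, hnP, hn⟩ := (hfr.and_eventually (eventually_ge_atTop M)).exists
  obtain ⟨w, hw, hwn⟩ := key n hnP
  have hlam : act (v k + wk - (v n + w)) e₁ = (γ k * (γ n)⁻¹) • e₁ := by
    have h8 : act (v k + wk) e₁ = act (v n + w) ((γ k * (γ n)⁻¹) • e₁) := by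
      rw [ha.smul, hw, hwk, mul_smul, inv_smul_smul]
    have h9 : v k + wk - (v n + w) = -(v n + w) + (v k + wk) := by abel
    rw [h9, ha.add, h8, ha.neg]
  have h10 := hv n (v k + wk - (v n + w)) ⟨_, hlam⟩
  have h11 : v n + (v k + wk - (v n + w)) = v k + wk - w := by abel
  rw [h11] at h10
  have h12 : ‖v k + wk - w‖ ≤ ‖v k‖ + 2 := by
    calc ‖v k + wk - w‖ ≤ ‖v k + wk‖ + ‖w‖ := norm_sub_le _ _
      _ ≤ ‖v k‖ + ‖wk‖ + ‖w‖ := by gcongr; exact norm_add_le _ _
      _ ≤ ‖v k‖ + 1 + 1 := by gcongr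
      _ = ‖v k‖ + 2 := by ring
  have h13 : (M : ℝ) ≤ n := by exact_mod_cast hn
  linarith

end Vale.Agent.P281.H349.O
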