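import Vale.Agent.P281.H349.O.Der

/-!
# P281, project T-UD (helper349, block R0b): the tangent spaces
-/

open Set Filter Metric Topology

set_option linter.all false

noncomputable section

namespace Vale.Agent.P281.H349.O

variable {d : ℕ} {E V : Type*} [TopologicalSpace E] [NormedAddCommGroup V]
  [NormedSpace ℂ V] {h : E → V} {m : V →L[ℂ] Cm d} {ψ : OpenPartialHomeomorph E (Cm d)}

theorem Flat.tan_dF (H : Flat h m ψ) {e : E} (he : e ∈ ψ.source) {v : V} :
    Tan h e v ↔ dF h m h e (m v) = v := by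
  rw [H.tan_iff he, H.dF_eq he, H.eq e he]

theorem Flat.dF_tan (H : Flat h m ψ) {e : E} (he : e ∈ ψ.source) (ξ : Cm d) :
    Tan h e (dF h m h e ξ) := by
  rw [H.dF_eq he, ← H.eq e he]
  exact H.tan_range he ξ

theorem Flat.m_dF (H : Flat h m ψ) {e : E} (he : e ∈ ψ.source) (ξ : Cm d) :
    m (dF h m h e ξ) = ξ := by
  rw [H.dF_eq he, ← H.eq e he]
  exact H.m_fderiv (ψ.map_source he) ξ

/-- the tangent space -/
def tn (hI : IsImm d h) (e : E) : Submodule ℂ V where
  carrier := {v | Tan h e v}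
  zero_mem' := by
    obtain ⟨m, ψ, H, he⟩ := hI e
    show Tan h e 0
    rw [H.tan_iff he]
    simp
  add_mem' := fun {a b} ha hb => by
    obtain ⟨m, ψ, H, he⟩ := hI e
    have h1 := (H.tan_iff he).1 ha
    have h2 := (H.tan_iff he).1 hb
    show Tan h e (a + b)
    rw [H.tan_iff he, map_add, map_add, h1, h2]
  smul_mem' := fun c a ha => by
    obtain ⟨m, ψ, H, he⟩ := hI e
    have h1 := (H.tan_iff he).1 ha
    show Tan h e (c • a)
    rw [H.tan_iff he, map_smul, map_smul, h1]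

theorem mem_tn (hI : IsImm d h) {e : E} {v : V} : v ∈ tn hI e ↔ Tan h e v := Iff.rfl

/-- tangent spaces have the same dimension -/
theorem tan_symm (hI : IsImm d h) {e e₁ : E} (hsub : ∀ v, Tan h e v → Tan h e₁ v) :
    ∀ v, Tan h e v ↔ Tan h e₁ v := by
  obtain ⟨m, ψ, H, he⟩ := hI e
  obtain ⟨m₁, ψ₁, H₁, he₁⟩ := hI e₁
  let A : Cm d →ₗ[ℂ] Cm d := (m₁.comp (dF h m h e) : Cm d →L[ℂ] Cm d)
  have hA : Function.Injective A := by
    rw [← LinearMap.ker_eq_bot, LinearMap.ker_eq_bot']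
    intro ξ hξ
    have h1 : m₁ (dF h m h e ξ) = 0 := hξ
    have h2 := (H₁.tan_dF he₁).1 (hsub _ (H.dF_tan he ξ))
    rw [h1, map_zero] at h2
    have h3 := H.m_dF he ξ
    rw [← h2, map_zero] at h3
    exact h3.symm
  have hAs : Function.Surjective A := LinearMap.injective_iff_surjective.1 hA
  intro v
  refine ⟨hsub v, fun hv => ?_⟩
  obtain ⟨ξ, hξ⟩ := hAs (m₁ v)
  have h1 : m₁ (dF h m h e ξ) = m₁ v := hξ
  have h2 := (H₁.tan_dF he₁).1 (hsub _ (H.dF_tan he ξ))
  have h3 := (H₁.tan_dF he₁).1 hv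
  rw [h1, h3] at h2
  rw [h2]
  exact H.dF_tan he ξ

/-- a continuous map which changes `h` by a constant -/
theorem Tan.map {g : E → E} (hg : Continuous g) {C : V} (hC : ∀ e, h (g e) = h e + C) {e : E}
    {v : V} (hv : Tan h e v) : Tan h (g e) v := by
  obtain ⟨γ, h1, h2, h3⟩ := hv
  refine ⟨fun t => g (γ t), hg.continuousAt.comp h1, congrArg g h2, ?_⟩
  have h4 : (fun t => h (g (γ t))) = fun t => h (γ t) + C := funext fun t => hC _
  rw [h4]
  exact h3.add_const C

/-- the points with the tangent space of `e₁` -/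
def Zs (h : E → V) (e₁ : E) : Set E := {e | ∀ v, Tan h e v ↔ Tan h e₁ v}

theorem isClosed_Zs [FiniteDimensional ℂ V] (hI : IsImm d h) (e₁ : E) : IsClosed (Zs h e₁) := by
  rw [← isOpen_compl_iff, isOpen_iff_mem_nhds]
  intro e he
  have h1 : ∃ v, Tan h e v ∧ ¬ Tan h e₁ v := by
    by_contra hcon
    push Not at hcon
    exact he (tan_symm hI hcon)
  obtain ⟨v, hv, hv₁⟩ := h1
  obtain ⟨m, ψ, H, hes⟩ := hI e
  have h2 : ContinuousAt (fun x => fderiv ℂ (fun x => h (ψ.symm x)) x (m v)) (ψ e) := by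
    have h3 := (H.an _ (ψ.map_source hes)).fderiv.continuousAt
    exact ((ContinuousLinearMap.apply ℂ V (m v)).continuous.continuousAt).comp h3
  have h4 : ContinuousAt (fun e' => fderiv ℂ (fun x => h (ψ.symm x)) (ψ e') (m v)) e :=
    ContinuousAt.comp (g := fun x => fderiv ℂ (fun x => h (ψ.symm x)) x (m v)) h2
      (ψ.continuousAt hes)
  have hcl : IsClosed (tn hI e₁ : Set V) := (tn hI e₁).closed_of_finiteDimensional
  have h5 : fderiv ℂ (fun x => h (ψ.symm x)) (ψ e) (m v) ∈ ((tn hI e₁ : Set V))ᶜ := by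
    rw [(H.tan_iff hes).1 hv]
    exact hv₁
  have h6 := h4.eventually (hcl.isOpen_compl.mem_nhds h5)
  filter_upwards [h6, ψ.open_source.mem_nhds hes] with e' h7 h8 h9
  exact h7 ((h9 _).1 (H.tan_range h8 (m v)))

section group
variable {Γ : Type*} [Group Γ] [MulAction Γ E] [ContinuousConstSMul Γ E] {c : Γ → V}

theorem tan_smul (hc : ∀ (γ : Γ) e, h (γ • e) = h e + c γ) (γ : Γ) (e : E) (v : V) :
    Tan h (γ • e) v ↔ Tan h e v := by
  constructor
  · intro h1
    have h2 := h1.map (continuous_const_smul γ⁻¹) (hc γ⁻¹)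
    rwa [inv_smul_smul] at h2
  · exact fun h1 => h1.map (continuous_const_smul γ) (hc γ)

theorem IsAct.tan [T2Space E] {hI : IsImm d h} {act : bs hI → E → E} (ha : IsAct hI c act)
    (w : bs hI) (e : E) (v : V) : Tan h (act w e) v ↔ Tan h e v := by
  constructor
  · intro h1
    have h2 := h1.map (ha.cont_e (-w)) (ha.lift (-w))
    rwa [ha.neg] at h2
  · exact fun h1 => h1.map (ha.cont_e w) (ha.lift w)

end group

/-- charts on `Zs` -/
theorem exists_flat_Z (hI : IsImm d h) (H : Flat h m ψ) {e₁ : E} (he₁ : e₁ ∈ ψ.source) {e : E}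
    (he : e ∈ Zs h e₁) : ∃ ψ' : OpenPartialHomeomorph E (Cm d), Flat h m ψ' ∧ e ∈ ψ'.source := by
  obtain ⟨m', ψ', H', he'⟩ := hI e
  refine H'.change he' m fun v hv hmv => ?_
  have h1 := (H.tan_dF he₁).1 ((he v).1 hv)
  rw [hmv, map_zero] at h1
  exact h1.symm

/-- equal tangent spaces -/
theorem Zs_iff {ψ' : OpenPartialHomeomorph E (Cm d)} (H : Flat h m ψ) (H' : Flat h m ψ')
    {e e₁ : E} (he : e ∈ ψ.source) (he₁ : e₁ ∈ ψ'.source) :
    e ∈ Zs h e₁ ↔ dF h m h e = dF h m h e₁ := by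
  constructor
  · intro h1
    ext1 ξ
    have h2 := (H'.tan_dF he₁).1 ((h1 _).1 (H.dF_tan he ξ))
    rw [H.m_dF he] at h2
    exact h2.symm
  · intro h1 v
    rw [H.tan_dF he, H'.tan_dF he₁, h1]

/-- **Propagation**: a vector which is tangent on an open set is tangent everywhere. -/
theorem tan_propagate [CompleteSpace V] [PreconnectedSpace E] (hI : IsImm d h) {v : V} {e₁ : E}
    (h1 : ∀ᶠ e in 𝓝 e₁, Tan h e v) : ∀ e, Tan h e v := by
  set P : Set E := {e | ∀ᶠ e' in 𝓝 e, Tan h e' v} with hP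
  have hPo : IsOpen P := by
    rw [isOpen_iff_mem_nhds]
    intro e he
    exact eventually_eventually_nhds.2 he
  have hPc : IsClosed P := by
    rw [← closure_subset_iff_isClosed]
    intro e he
    obtain ⟨m, ψ, H, hes⟩ := hI e
    obtain ⟨r, hr, hball⟩ := Metric.isOpen_iff.1 ψ.open_target (ψ e) (ψ.map_source hes)
    have hU : ψ.source ∩ ψ ⁻¹' ball (ψ e) r ∈ 𝓝 e :=
      (ψ.isOpen_inter_preimage isOpen_ball).mem_nhds ⟨hes, mem_ball_self hr⟩
    obtain ⟨e', ⟨h2, h3⟩, h4⟩ := mem_closure_iff_nhds.1 he _ hU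
    set F : Cm d → V := fun x => fderiv ℂ (fun x => h (ψ.symm x)) x (m v) - v with hF
    have hFA : AnalyticOnNhd ℂ F (ball (ψ e) r) := by
      intro x hx
      have h5 := (H.an x (hball hx)).fderiv
      exact (((ContinuousLinearMap.apply ℂ V (m v)).analyticAt _).comp h5).sub analyticAt_const
    have h0 : F =ᶠ[𝓝 (ψ e')] 0 := by
      have h5 : ∀ᶠ x in 𝓝 (ψ e'), Tan h (ψ.symm x) v := by
        have h6 := ψ.continuousAt_symm (ψ.map_source h2)
        rw [ContinuousAt, ψ.left_inv h2] at h6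
        exact h6.eventually h4
      filter_upwards [h5, ψ.open_target.mem_nhds (ψ.map_source h2)] with x h7 h8
      have h9 := (H.tan_iff (ψ.map_target h8)).1 h7
      rw [ψ.right_inv h8] at h9
      show fderiv ℂ (fun x => h (ψ.symm x)) x (m v) - v = 0
      rw [h9, sub_self]
    have h6 := hFA.eqOn_zero_of_preconnected_of_eventuallyEq_zero
      (convex_ball _ _).isPreconnected h3 h0
    filter_upwards [hU] with e'' h7
    rw [H.tan_iff h7.1]
    have h8 : F (ψ e'') = 0 := h6 h7.2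
    exact sub_eq_zero.1 h8
  have hPu : P = univ := IsClopen.eq_univ ⟨hPc, hPo⟩ ⟨e₁, h1⟩
  intro e
  have h2 : e ∈ P := by rw [hPu]; exact mem_univ e
  exact h2.self_of_nhds

end Vale.Agent.P281.H349.O
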