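import Vale.Agent.P281.H349.O.Tn
import Vale.Agent.P281.H349.D.Leaf

/-!
# P281, project T-UD (helper349, block R0b): the leaves of the Gauss map
-/

open Set Filter Metric Topology

set_option linter.all false

noncomputable section

namespace Vale.Agent.P281.H349.O

variable {d : ℕ} {E V : Type*} [TopologicalSpace E] [NormedAddCommGroup V]
  [NormedSpace ℂ V] {h : E → V} {m : V →L[ℂ] Cm d} {ψ ψ₁ : OpenPartialHomeomorph E (Cm d)} {e₁ : E}

/-- the Gauss map in the flat charts -/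
abbrev KK (h : E → V) (m : V →L[ℂ] Cm d) : E → (Cm d →L[ℂ] V) := dF h m h

/-- the kernel of the derivative of the Gauss map -/
def Nn (h : E → V) (m : V →L[ℂ] Cm d) (e : E) : Submodule ℂ (Cm d) :=
  LinearMap.ker (dF h m (KK h m) e : Cm d →ₗ[ℂ] (Cm d →L[ℂ] V))

theorem mem_Nn {e : E} {u : Cm d} : u ∈ Nn h m e ↔ dF h m (KK h m) e u = 0 := Iff.rfl

/-- the points near which the leaf in the directions `Nn h m e₁` is contained in `Zs h e₁` -/
def Ys (h : E → V) (m : V →L[ℂ] Cm d) (e₁ : E) : Set E :=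
  {e | e ∈ Zs h e₁ ∧ ∃ ψ : OpenPartialHomeomorph E (Cm d), Flat h m ψ ∧ e ∈ ψ.source ∧
    ∀ᶠ u in 𝓝 (0 : Cm d), u ∈ Nn h m e₁ → KK h m (ψ.symm (m (h e) + u)) = KK h m e₁}

theorem FH.KK [CompleteSpace V] : FH h m (KK h m) := FH.self.dF

theorem Ys_disc [CompleteSpace V] (H : Flat h m ψ) {e : E} (he : e ∈ Ys h m e₁)
    (hes : e ∈ ψ.source) {ρ : ℝ} (hball : ball (m (h e)) ρ ⊆ ψ.target) {u : Cm d}
    (hu : u ∈ Nn h m e₁) (hun : ‖u‖ < ρ) : KK h m (ψ.symm (m (h e) + u)) = KK h m e₁ := by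
  obtain ⟨hZ, ψ', H', hes', hev⟩ := he
  have hsy := H'.symm_eq H hes' hes
  rcases eq_or_ne u 0 with rfl | hu0
  · have h1 := hev.self_of_nhds (Nn h m e₁).zero_mem
    rw [add_zero] at h1 ⊢
    rw [← hsy.self_of_nhds]
    exact h1
  have hup : 0 < ‖u‖ := norm_pos_iff.2 hu0
  set F : ℂ → (Cm d →L[ℂ] V) := fun t => KK h m (ψ.symm (m (h e) + t • u)) - KK h m e₁ with hF
  have hmem : ∀ t ∈ ball (0 : ℂ) (ρ / ‖u‖), m (h e) + t • u ∈ ball (m (h e)) ρ := by
    intro t ht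
    rw [mem_ball, dist_eq_norm, add_sub_cancel_left, norm_smul]
    rw [mem_ball_zero_iff, lt_div_iff₀ hup] at ht
    exact ht
  have hFA : AnalyticOnNhd ℂ F (ball 0 (ρ / ‖u‖)) := by
    intro t ht
    have h1 : AnalyticAt ℂ (fun x => KK h m (ψ.symm x)) (m (h e) + t • u) :=
      FH.KK ψ H _ (hball (hmem t ht))
    have h2 : AnalyticAt ℂ (fun t : ℂ => m (h e) + t • u) t := by fun_prop
    exact (AnalyticAt.comp (g := fun x => KK h m (ψ.symm x)) (f := fun t : ℂ => m (h e) + t • u)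
      h1 h2).sub analyticAt_const
  have hct : Tendsto (fun t : ℂ => t • u) (𝓝 0) (𝓝 (0 : Cm d)) := by
    have := (by fun_prop : Continuous fun t : ℂ => t • u).tendsto 0
    rwa [zero_smul] at this
  have hct' : Tendsto (fun t : ℂ => m (h e) + t • u) (𝓝 0) (𝓝 (m (h e))) := by
    have := (by fun_prop : Continuous fun t : ℂ => m (h e) + t • u).tendsto 0
    rwa [zero_smul, add_zero] at this
  have h0 : F =ᶠ[𝓝 0] 0 := by
    filter_upwards [hct.eventually hev, hct'.eventually hsy] with t h1 h2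
    have h3 := h1 ((Nn h m e₁).smul_mem t hu)
    rw [h2] at h3
    show KK h m (ψ.symm (m (h e) + t • u)) - KK h m e₁ = 0
    rw [h3, sub_self]
  have hρ : 0 < ρ := (norm_nonneg u).trans_lt hun
  have h1 := hFA.eqOn_zero_of_preconnected_of_eventuallyEq_zero
    (convex_ball _ _).isPreconnected (mem_ball_self (by positivity)) h0
  have h2 : (1 : ℂ) ∈ ball (0 : ℂ) (ρ / ‖u‖) := by
    rw [mem_ball_zero_iff, norm_one, one_lt_div hup]
    exact hun
  have h3 := h1 h2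
  have h4 : KK h m (ψ.symm (m (h e) + (1 : ℂ) • u)) - KK h m e₁ = 0 := h3
  rw [one_smul] at h4
  exact sub_eq_zero.1 h4

/-- the set `Ys` is stable under the leaves -/
theorem Ys_stable [CompleteSpace V] (H₁ : Flat h m ψ₁) (he₁ : e₁ ∈ ψ₁.source) (H : Flat h m ψ)
    {e : E} (he : e ∈ Ys h m e₁) (hes : e ∈ ψ.source) {ρ : ℝ}
    (hball : ball (m (h e)) ρ ⊆ ψ.target) {u : Cm d}
    (hu : u ∈ Nn h m e₁) (hun : ‖u‖ < ρ) : ψ.symm (m (h e) + u) ∈ Ys h m e₁ := by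
  have hxt : m (h e) + u ∈ ψ.target := hball (by
    rw [mem_ball, dist_eq_norm, add_sub_cancel_left]; exact hun)
  have hes' : ψ.symm (m (h e) + u) ∈ ψ.source := ψ.map_target hxt
  refine ⟨(Zs_iff H H₁ hes' he₁).2 (Ys_disc H he hes hball hu hun), ψ, H, hes', ?_⟩
  have h1 : ∀ᶠ w in 𝓝 (0 : Cm d), ‖u + w‖ < ρ := by
    have h2 : ContinuousAt (fun w : Cm d => ‖u + w‖) 0 := by fun_prop
    refine h2.eventually (p := fun s => s < ρ) (gt_mem_nhds ?_)
    simpa using hun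
  filter_upwards [h1] with w hw hwN
  rw [H.right hxt, add_assoc]
  exact Ys_disc H he hes hball ((Nn h m e₁).add_mem hu hwN) hw

theorem isClosed_Ys [FiniteDimensional ℂ V] (hI : IsImm d h) (H₁ : Flat h m ψ₁)
    (he₁ : e₁ ∈ ψ₁.source) : IsClosed (Ys h m e₁) := by
  have hcV : CompleteSpace V := FiniteDimensional.complete ℂ V
  rw [← closure_subset_iff_isClosed]
  intro e he
  have hZ : e ∈ Zs h e₁ := by
    have h1 : Ys h m e₁ ⊆ Zs h e₁ := fun e he => he.1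
    exact (isClosed_Zs hI e₁).closure_subset_iff.2 h1 he
  obtain ⟨ψ, H, hes⟩ := exists_flat_Z hI H₁ he₁ hZ
  obtain ⟨r, hr, hball⟩ := Metric.isOpen_iff.1 ψ.open_target (ψ e) (ψ.map_source hes)
  refine ⟨hZ, ψ, H, hes, ?_⟩
  have h1 : ∀ᶠ u in 𝓝 (0 : Cm d), ‖u‖ < r / 2 := by
    have : Continuous fun u : Cm d => ‖u‖ := continuous_norm
    exact this.continuousAt.eventually (gt_mem_nhds (show ‖(0 : Cm d)‖ < r / 2 by
      rw [norm_zero]; positivity))
  filter_upwards [h1] with u hun hu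
  by_contra hcon
  have hxt : m (h e) + u ∈ ψ.target := hball (by
    rw [← H.eq e hes, mem_ball, dist_eq_norm, add_sub_cancel_left]; linarith)
  have h2 : ContinuousAt (fun e' => KK h m (ψ.symm (m (h e') + u))) e := by
    have h3 : ContinuousAt (fun x => KK h m (ψ.symm x)) (m (h e) + u) :=
      (FH.KK ψ H _ hxt).continuousAt
    exact ContinuousAt.comp (g := fun x => KK h m (ψ.symm x)) (f := fun e' => m (h e') + u) h3
      ((m.continuous.continuousAt.comp (H.contAt hes)).add continuousAt_const)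
  have h4 : ∀ᶠ e' in 𝓝 e, KK h m (ψ.symm (m (h e') + u)) ≠ KK h m e₁ := h2.eventually_ne hcon
  have hU : ψ.source ∩ ψ ⁻¹' ball (ψ e) (r / 2) ∈ 𝓝 e :=
    (ψ.isOpen_inter_preimage isOpen_ball).mem_nhds ⟨hes, mem_ball_self (by positivity)⟩
  obtain ⟨e', ⟨h5, h6⟩, h7⟩ := mem_closure_iff_nhds.1 he _ (inter_mem h4 hU)
  refine h5 (Ys_disc H h7 h6.1 (ρ := r / 2) ?_ hu hun)
  rw [← H.eq e' h6.1]
  refine Subset.trans ?_ hball
  intro y hy
  rw [mem_ball] at hy ⊢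
  have h8 : dist (ψ e') (ψ e) < r / 2 := h6.2
  linarith [dist_triangle y (ψ e') (ψ e)]

/-- a flat chart of size `ρ` at `e` -/
def Rad (h : E → V) (m : V →L[ℂ] Cm d) (ρ : ℝ) (e : E) : Prop :=
  ∃ ψ : OpenPartialHomeomorph E (Cm d), Flat h m ψ ∧ e ∈ ψ.source ∧ ball (m (h e)) ρ ⊆ ψ.target

theorem Rad.mono {ρ ρ' : ℝ} {e : E} (H : Rad h m ρ e) (hρ : ρ' ≤ ρ) : Rad h m ρ' e := by
  obtain ⟨ψ, H, h1, h2⟩ := H
  exact ⟨ψ, H, h1, (ball_subset_ball hρ).trans h2⟩

theorem exists_rad (H : Flat h m ψ) {e : E} (hes : e ∈ ψ.source) :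
    ∃ ρ > 0, ∀ᶠ e' in 𝓝 e, Rad h m ρ e' := by
  obtain ⟨r, hr, hball⟩ := Metric.isOpen_iff.1 ψ.open_target (ψ e) (ψ.map_source hes)
  refine ⟨r / 2, by positivity, ?_⟩
  have hU : ψ.source ∩ ψ ⁻¹' ball (ψ e) (r / 2) ∈ 𝓝 e :=
    (ψ.isOpen_inter_preimage isOpen_ball).mem_nhds ⟨hes, mem_ball_self (by positivity)⟩
  filter_upwards [hU] with e' h6
  refine ⟨ψ, H, h6.1, ?_⟩
  rw [← H.eq e' h6.1]
  refine Subset.trans ?_ hball
  intro y hy
  rw [mem_ball] at hy ⊢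
  have h8 : dist (ψ e') (ψ e) < r / 2 := h6.2
  linarith [dist_triangle y (ψ e') (ψ e)]

section group
variable {Γ : Type*} [Group Γ] [MulAction Γ E] [ContinuousConstSMul Γ E] {c : Γ → V}

theorem Zs_smul (hc : ∀ (γ : Γ) e, h (γ • e) = h e + c γ) {e : E} (he : e ∈ Zs h e₁) (γ : Γ) :
    γ • e ∈ Zs h e₁ := fun v => (tan_smul hc γ e v).trans (he v)

theorem Ys_smul (hc : ∀ (γ : Γ) e, h (γ • e) = h e + c γ) {e : E} (he : e ∈ Ys h m e₁) (γ : Γ) :
    γ • e ∈ Ys h m e₁ := by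
  obtain ⟨hZ, ψ, H, hes, hev⟩ := he
  obtain ⟨ψ', H', h1, h2, h3⟩ := H.smul hc γ
  refine ⟨Zs_smul hc hZ γ, ψ', H', (h1 e).2 hes, ?_⟩
  filter_upwards [hev] with u hu huN
  have h4 : m (h (γ • e)) + u = (m (h e) + u) + m (c γ) := by
    rw [hc, map_add]; abel
  rw [h4, h3]
  show dF h m h (γ • ψ.symm (m (h e) + u)) = _
  rw [dF_smul hc (G := h) (hc γ)]
  exact hu huN

theorem Rad.smul (hc : ∀ (γ : Γ) e, h (γ • e) = h e + c γ) {ρ : ℝ} {e : E} (H : Rad h m ρ e)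
    (γ : Γ) : Rad h m ρ (γ • e) := by
  obtain ⟨ψ, H, hes, hb⟩ := H
  obtain ⟨ψ', H', h1, h2, h3⟩ := H.smul hc γ
  refine ⟨ψ', H', (h1 e).2 hes, fun x hx => ?_⟩
  have h4 : x - m (c γ) ∈ ψ.target := hb (by
    rw [mem_ball, dist_eq_norm] at hx ⊢
    rw [hc, map_add] at hx
    have : x - m (c γ) - m (h e) = x - (m (h e) + m (c γ)) := by abel
    rw [this]
    exact hx)
  have h5 := (h2 (x - m (c γ))).2 h4
  rwa [sub_add_cancel] at h5

/-- the uniform radius on `Zs` -/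
theorem exists_rad_Z [FiniteDimensional ℂ V] (hI : IsImm d h) (hC : Cpt h c) (H₁ : Flat h m ψ₁)
    (he₁ : e₁ ∈ ψ₁.source) : ∃ ρ > 0, ∀ e ∈ Zs h e₁, Rad h m ρ e := by
  obtain ⟨C, hCc, hCe⟩ := hC.cpt
  have hcl := isClosed_Zs hI e₁
  have h1 : ∃ ρ > 0, ∀ e ∈ C ∩ Zs h e₁, Rad h m ρ e := by
    refine (hCc.inter_right hcl).induction_on (p := fun s => ∃ ρ > 0, ∀ e ∈ s, Rad h m ρ e)
      ?_ ?_ ?_ ?_
    · exact ⟨1, one_pos, fun e he => absurd he (notMem_empty e)⟩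
    · rintro s t hst ⟨ε, hε, h2⟩
      exact ⟨ε, hε, fun e he => h2 e (hst he)⟩
    · rintro s t ⟨ε, hε, h2⟩ ⟨ε', hε', h3⟩
      refine ⟨min ε ε', lt_min hε hε', ?_⟩
      rintro e (he | he)
      · exact (h2 e he).mono (min_le_left _ _)
      · exact (h3 e he).mono (min_le_right _ _)
    · intro e he
      obtain ⟨ψ, H, hes⟩ := exists_flat_Z hI H₁ he₁ he.2
      obtain ⟨ε, hε, h2⟩ := exists_rad H hes
      exact ⟨_, mem_nhdsWithin_of_mem_nhds h2, ε, hε, fun e' he' => he'⟩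
  obtain ⟨ρ, hρ, h2⟩ := h1
  refine ⟨ρ, hρ, fun e he => ?_⟩
  obtain ⟨γ, x, hx, rfl⟩ := hCe e
  have hxZ : x ∈ Zs h e₁ := by
    have := Zs_smul hC.add he γ⁻¹
    rwa [inv_smul_smul] at this
  exact (h2 x ⟨hx, hxZ⟩).smul hC.add γ

/-- **Invariant functions are constant along the leaves in `Ys`.** -/
theorem flow_zero [FiniteDimensional ℂ V] (hI : IsImm d h) (hC : Cpt h c) (H₁ : Flat h m ψ₁)
    (he₁ : e₁ ∈ ψ₁.source) {G : E → ℂ} (hG : FH h m G) (hGΓ : ∀ (γ : Γ) e, G (γ • e) = G e)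
    {u : Cm d} (hu : u ∈ Nn h m e₁) : ∀ e ∈ Ys h m e₁, Dw h m u G e = 0 := by
  have hcV : CompleteSpace V := FiniteDimensional.complete ℂ V
  intro e₀ he₀
  obtain ⟨ρ, hρ, hrad⟩ := exists_rad_Z hI hC H₁ he₁
  obtain ⟨C, hCc, hCe⟩ := hC.cpt
  have hYc : IsCompact (C ∩ Ys h m e₁) := hCc.inter_right (isClosed_Ys hI H₁ he₁)
  have hback : ∀ e ∈ Ys h m e₁, ∃ (γ : Γ) (x : E), x ∈ C ∩ Ys h m e₁ ∧ γ • x = e := by
    intro e he
    obtain ⟨γ, x, hx, hxe⟩ := hCe e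
    refine ⟨γ, x, ⟨hx, ?_⟩, hxe⟩
    have h1 := Ys_smul hC.add he γ⁻¹
    rw [← hxe, inv_smul_smul] at h1
    exact h1
  obtain ⟨γ₀, x₀, hx₀, -⟩ := hback e₀ he₀
  have hcont : ∀ {F : E → ℂ}, FH h m F → ContinuousOn F (Ys h m e₁) := by
    intro F hF e he
    obtain ⟨ψ, H, hes⟩ := exists_flat_Z hI H₁ he₁ he.1
    have h1 : ContinuousAt (fun x => F (ψ.symm x)) (ψ e) := (hF ψ H _ (ψ.map_source hes)).continuousAt
    have h2 : ContinuousAt (fun e => F (ψ.symm (ψ e))) e :=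
      ContinuousAt.comp (g := fun x => F (ψ.symm x)) h1 (ψ.continuousAt hes)
    refine (h2.congr ?_).continuousWithinAt
    filter_upwards [ψ.open_source.mem_nhds hes] with e' he'
    rw [ψ.left_inv he']
  have hG' : FH h m (Dw h m u G) := hG.Dw u
  obtain ⟨es, hes, hmax⟩ := hYc.exists_isMaxOn ⟨x₀, hx₀⟩
    ((hcont hG').mono inter_subset_right).norm
  have hmax' : ∀ e ∈ Ys h m e₁, ‖Dw h m u G e‖ ≤ ‖Dw h m u G es‖ := by
    intro e he
    obtain ⟨γ, x, hx, rfl⟩ := hback e he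
    rw [Dw_smul hC.add hGΓ]
    exact hmax hx
  obtain ⟨M, hM⟩ := hYc.exists_bound_of_continuousOn ((hcont hG).mono inter_subset_right)
  have hM' : ∀ e ∈ Ys h m e₁, ‖G e‖ ≤ M := by
    intro e he
    obtain ⟨γ, x, hx, rfl⟩ := hback e he
    rw [hGΓ]
    exact hM x hx
  set k := Dw h m u G es with hk
  set R := ρ / (‖u‖ + 1) with hR
  have hR0 : 0 < R := by positivity
  have hstep : ∀ e ∈ Ys h m e₁, Dw h m u G e = k → ∃ e' ∈ Ys h m e₁, Dw h m u G e' = k ∧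
      G e' = G e + ((R / 2 : ℝ) : ℂ) * k := by
    intro e he hek
    obtain ⟨ψ, H, heψ, hball⟩ := hrad e he.1
    have hun : ∀ t ∈ ball (0 : ℂ) R, ‖t • u‖ < ρ := by
      intro t ht
      rw [mem_ball_zero_iff] at ht
      rw [norm_smul]
      have h1 : ‖t‖ * ‖u‖ ≤ ‖t‖ * (‖u‖ + 1) := by
        have := norm_nonneg t; nlinarith
      have h2 : ‖t‖ * (‖u‖ + 1) < R * (‖u‖ + 1) := by
        have : 0 < ‖u‖ + 1 := by positivity
        exact mul_lt_mul_of_pos_right ht this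
      rw [hR, div_mul_cancel₀ _ (by positivity)] at h2
      linarith
    have hst : ∀ t ∈ ball (0 : ℂ) R, ψ.symm (m (h e) + t • u) ∈ Ys h m e₁ := fun t ht =>
      Ys_stable H₁ he₁ H he heψ hball ((Nn h m e₁).smul_mem t hu) (hun t ht)
    have hxt : ∀ t ∈ ball (0 : ℂ) R, m (h e) + t • u ∈ ψ.target := fun t ht => hball (by
      rw [mem_ball, dist_eq_norm, add_sub_cancel_left]; exact hun t ht)
    set f : ℂ → ℂ := fun t => G (ψ.symm (m (h e) + t • u)) with hf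
    set g : ℂ → ℂ := fun t => Dw h m u G (ψ.symm (m (h e) + t • u)) with hg
    have hlin : ∀ t : ℂ, HasDerivAt (fun t : ℂ => m (h e) + t • u) u t := by
      intro t
      simpa using ((hasDerivAt_id t).smul_const u).const_add (m (h e))
    have hfd : ∀ t ∈ ball (0 : ℂ) R, HasDerivAt f (g t) t := by
      intro t ht
      have h1 := (hG ψ H _ (hxt t ht)).differentiableAt.hasFDerivAt.comp_hasDerivAt t (hlin t)
      have h2 : g t = fderiv ℂ (fun x => G (ψ.symm x)) (m (h e) + t • u) u :=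
        H.Dw_symm (hxt t ht) G u
      rw [h2]
      exact h1
    have hgd : DifferentiableOn ℂ g (ball 0 R) := by
      intro t ht
      exact ((hG' ψ H _ (hxt t ht)).differentiableAt.hasFDerivAt.comp_hasDerivAt t
        (hlin t)).differentiableAt.differentiableWithinAt
    have he0 : ψ.symm (m (h e) + (0 : ℂ) • u) = e := by
      rw [zero_smul, add_zero, H.left heψ]
    have hg0 : g 0 = k := by
      show Dw h m u G (ψ.symm (m (h e) + (0 : ℂ) • u)) = k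
      rw [he0, hek]
    have hgm : IsMaxOn (norm ∘ g) (ball 0 R) 0 := by
      intro t ht
      show ‖g t‖ ≤ ‖g 0‖
      rw [hg0]
      exact hmax' _ (hst t ht)
    have hgc := Complex.eqOn_of_isPreconnected_of_isMaxOn_norm
      (convex_ball (0 : ℂ) R).isPreconnected isOpen_ball hgd (mem_ball_self hR0) hgm
    have hgc' : ∀ t ∈ ball (0 : ℂ) R, g t = k := fun t ht => by
      rw [← hg0]; exact hgc ht
    have hconst : ∀ t ∈ ball (0 : ℂ) R, f t - t * k = f 0 := by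
      intro t ht
      have h1 : ∀ s ∈ ball (0 : ℂ) R, HasDerivAt (fun s => f s - s * k) 0 s := by
        intro s hs
        have h2 := (hfd s hs).sub ((hasDerivAt_id s).mul_const k)
        rw [hgc' s hs, one_mul, sub_self] at h2
        exact h2
      have h2 := isOpen_ball.is_const_of_deriv_eq_zero (convex_ball (0 : ℂ) R).isPreconnected
        (f := fun s => f s - s * k)
        (fun s hs => (h1 s hs).differentiableAt.differentiableWithinAt)
        (fun s hs => (h1 s hs).deriv) ht (mem_ball_self hR0)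
      simpa using h2
    have hmem : (((R / 2 : ℝ) : ℂ)) ∈ ball (0 : ℂ) R := by
      rw [mem_ball_zero_iff, Complex.norm_real, Real.norm_of_nonneg (by positivity)]
      linarith
    refine ⟨ψ.symm (m (h e) + ((R / 2 : ℝ) : ℂ) • u), hst _ hmem, hgc' _ hmem, ?_⟩
    have h3 := hconst _ hmem
    have h4 : f 0 = G e := by
      show G (ψ.symm (m (h e) + (0 : ℂ) • u)) = G e
      rw [he0]
    rw [h4] at h3
    show f ((R / 2 : ℝ) : ℂ) = _
    rw [← h3]
    ring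
  have hiter : ∀ n : ℕ, ∃ e ∈ Ys h m e₁, Dw h m u G e = k ∧
      G e = G es + n * (((R / 2 : ℝ) : ℂ) * k) := by
    intro n
    induction n with
    | zero => exact ⟨es, hes.2, rfl, by simp⟩
    | succ n ih =>
      obtain ⟨e, h1, h2, h3⟩ := ih
      obtain ⟨e', h4, h5, h6⟩ := hstep e h1 h2
      refine ⟨e', h4, h5, ?_⟩
      rw [h6, h3]
      push_cast
      ring
  have hk0 : k = 0 := by
    by_contra hne
    have hpos : 0 < (R / 2) * ‖k‖ := by
      have := norm_pos_iff.2 hne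
      positivity
    obtain ⟨n, hn⟩ := exists_nat_gt ((2 * M) / ((R / 2) * ‖k‖))
    rw [div_lt_iff₀ hpos] at hn
    obtain ⟨e, h1, h2, h3⟩ := hiter n
    have h4 : ‖(n : ℂ) * (((R / 2 : ℝ) : ℂ) * k)‖ = n * ((R / 2) * ‖k‖) := by
      rw [norm_mul, norm_mul, Complex.norm_natCast, Complex.norm_real,
        Real.norm_of_nonneg (by positivity)]
    have h5 : (n : ℂ) * (((R / 2 : ℝ) : ℂ) * k) = G e - G es := by rw [h3]; ring
    rw [h5] at h4
    have h6 := norm_sub_le (G e) (G es)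
    have h7 := hM' e h1
    have h8 := hM' es hes.2
    linarith
  have h9 := hmax' e₀ he₀
  rw [hk0, norm_zero] at h9
  exact norm_le_zero_iff.1 h9

end group

end Vale.Agent.P281.H349.O
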